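import Vale.Agent.P048.Clique

/-!
P048: a vertex set with independence number at most two, with no clique on `m / 2` vertices
and no cycle on `m` vertices, has fewer than `m` vertices.
-/

open scoped Classical

namespace Vale.Agent.P048

variable {V : Type*} {G : SimpleGraph V}

/-- A cycle on `L` vertices inside `Y`. -/
def CycIn (G : SimpleGraph V) (Y : Finset V) (L : ℕ) : Prop :=
  3 ≤ L ∧ ∃ f, IsP G f (L - 1) ∧ G.Adj (f (L - 1)) (f 0) ∧ ∀ i, i ≤ L - 1 → f i ∈ Y

lemma cyc_rot {f : ℕ → V} {L s : ℕ} (hL : 0 < L) (hs : s < L) (hf : IsP G f (L - 1))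
    (hcl : G.Adj (f (L - 1)) (f 0)) :
    IsP G (fun i => f ((i + s) % L)) (L - 1) ∧
      G.Adj (f ((L - 1 + s) % L)) (f ((0 + s) % L)) := by
  have key : ∀ a, G.Adj (f (a % L)) (f ((a + 1) % L)) := by
    intro a
    have h1 := Nat.mod_lt a hL
    by_cases h : a % L + 1 < L
    · rw [Nat.add_mod a 1 L, Nat.mod_eq_of_lt (by omega : (1 : ℕ) < L), Nat.mod_eq_of_lt h]
      exact hf.2 _ (by omega)
    · have h2 : (a + 1) % L = 0 := by
        rw [← Nat.div_add_mod a L, show L * (a / L) + a % L + 1 = L * (a / L + 1) by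
          rw [Nat.mul_add, Nat.mul_one]; omega]
        exact Nat.mul_mod_right _ _
      rw [h2, show a % L = L - 1 by omega]
      exact hcl
  refine ⟨⟨fun i j hi hj he => ?_, fun i _ => ?_⟩, ?_⟩
  · have h1 := Nat.mod_lt (i + s) hL
    have h2 := Nat.mod_lt (j + s) hL
    have h3 := hf.1 _ _ (by omega) (by omega) he
    have h4 : ∀ x, x ≤ L - 1 → (x + s) % L = if x + s < L then x + s else x + s - L := by
      intro x hx
      split_ifs with h
      · exact Nat.mod_eq_of_lt h
      · rw [Nat.mod_eq_sub_mod (by omega), Nat.mod_eq_of_lt (by omega)]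
    rw [h4 i hi, h4 j hj] at h3
    split_ifs at h3 <;> omega
  · show G.Adj (f ((i + s) % L)) (f ((i + 1 + s) % L))
    rw [show i + 1 + s = i + s + 1 by omega]
    exact key _
  · have := key (L - 1 + s)
    rw [show L - 1 + s + 1 = L + s by omega, Nat.add_mod_left] at this
    rwa [Nat.zero_add]

/-- Among three vertices, two are adjacent. -/
lemma adj_of_three {Y : Finset V} (h : alpha G Y ≤ 2) {x y z : V} (hx : x ∈ Y) (hy : y ∈ Y)
    (hz : z ∈ Y) (hxy : x ≠ y) (hxz : x ≠ z) (hyz : y ≠ z) :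
    G.Adj x y ∨ G.Adj x z ∨ G.Adj y z := by
  obtain ⟨a, ha, b, hb, hab⟩ := exists_adj h (s := {x, y, z})
    (by simp [Finset.insert_subset_iff, hx, hy, hz])
    (by rw [Finset.card_eq_three.2 ⟨x, y, z, hxy, hxz, hyz, rfl⟩]; omega)
  simp only [Finset.mem_insert, Finset.mem_singleton] at ha hb
  rcases ha with rfl | rfl | rfl <;> rcases hb with rfl | rfl | rfl <;>
    first
      | exact absurd hab G.irrefl
      | exact Or.inl hab
      | exact Or.inl hab.symm
      | exact Or.inr (Or.inl hab)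
      | exact Or.inr (Or.inl hab.symm)
      | exact Or.inr (Or.inr hab)
      | exact Or.inr (Or.inr hab.symm)

/-- A Hamiltonian-type cycle in an `alpha ≤ 2` set can be shortened by one vertex. -/
lemma CycIn.down {Y : Finset V} {L : ℕ} (h : alpha G Y ≤ 2) (hL : 8 ≤ L)
    (hC : CycIn G Y L) : CycIn G Y (L - 1) := by
  obtain ⟨-, f0, hf0, hcl0, hfY0⟩ := hC
  have short : ∀ f : ℕ → V, IsP G f (L - 1) → G.Adj (f (L - 1)) (f 0) →
      (∀ i, i ≤ L - 1 → f i ∈ Y) → G.Adj (f 0) (f 2) → CycIn G Y (L - 1) := by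
    intro f hf hcl hfY ha
    refine ⟨by omega, skipTo f 0 2, ?_, ?_, fun i hi => ?_⟩
    · have := isP_skipTo hf (by omega : 0 < 2) (by omega) ha
      rwa [show 0 + 1 + (L - 1 - 2) = L - 1 - 1 by omega] at this
    · rw [skipTo_le le_rfl, show L - 1 - 1 = 0 + 1 + (L - 3) by omega, skipTo, cat_last,
        show 2 + (L - 3) = L - 1 by omega]
      exact hcl
    · obtain ⟨a, ha', e, -, -⟩ := skipTo_mem (f := f) (r := L - 1) (i := i)
        (by omega : 0 < 2) (by omega) (by omega)
      rw [e]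
      exact hfY a ha'
  by_cases h2 : ∃ s, s < L ∧ G.Adj (f0 (s % L)) (f0 ((2 + s) % L))
  · obtain ⟨s, hs, ha⟩ := h2
    obtain ⟨hf, hcl⟩ := cyc_rot (by omega) hs hf0 hcl0
    exact short _ hf hcl
      (fun i _ => hfY0 _ (by have := Nat.mod_lt (i + s) (by omega : 0 < L); omega))
      (by simpa using ha)
  push Not at h2
  -- `c i` and `c (i + 2)` are never adjacent
  have no2 : ∀ i, ¬ G.Adj (f0 (i % L)) (f0 ((i + 2) % L)) := by
    intro i ha
    refine h2 (i % L) (Nat.mod_lt _ (by omega)) ?_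
    rwa [Nat.mod_mod, Nat.add_mod_mod, Nat.add_comm 2 i]
  have tri : ∀ i j l, i < j → j < l → l < i + L →
      G.Adj (f0 (i % L)) (f0 (j % L)) ∨ G.Adj (f0 (i % L)) (f0 (l % L)) ∨
        G.Adj (f0 (j % L)) (f0 (l % L)) := by
    intro i j l h1 h2 h3
    have hne : ∀ a b, a < b → b < a + L → f0 (a % L) ≠ f0 (b % L) := by
      intro a b hab hb he
      have ha' := Nat.mod_lt a (by omega : 0 < L)
      have hb' := Nat.mod_lt b (by omega : 0 < L)
      have h4 := hf0.1 _ _ (by omega) (by omega) he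
      have h5 : (b - a) % L = 0 := Nat.sub_mod_eq_zero_of_mod_eq h4.symm
      rw [Nat.mod_eq_of_lt (by omega)] at h5
      omega
    exact adj_of_three h (hfY0 _ (by have := Nat.mod_lt i (by omega : 0 < L); omega))
      (hfY0 _ (by have := Nat.mod_lt j (by omega : 0 < L); omega))
      (hfY0 _ (by have := Nat.mod_lt l (by omega : 0 < L); omega))
      (hne _ _ h1 (by omega)) (hne _ _ (by omega) h3) (hne _ _ h2 (by omega))
  -- chords (s, s+4), (s+2, s+5), or (s, s+5), (s+2, s+6)
  obtain ⟨s, hs, p, q, hpq, h04, h25⟩ : ∃ s, s < L ∧ ∃ p q, (p = 4 ∧ q = 5 ∨ p = 5 ∧ q = 6) ∧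
      G.Adj (f0 (s % L)) (f0 ((p + s) % L)) ∧
      G.Adj (f0 ((2 + s) % L)) (f0 ((q + s) % L)) := by
    by_cases h3 : ∃ i, G.Adj (f0 (i % L)) (f0 ((i + 3) % L))
    · obtain ⟨i, hi⟩ := h3
      have e : ∀ d, (d + (i + (L - 2)) % L) % L = (d + (i + (L - 2))) % L :=
        fun d => Nat.add_mod_mod _ _ _
      refine ⟨(i + (L - 2)) % L, Nat.mod_lt _ (by omega), 4, 5, Or.inl ⟨rfl, rfl⟩, ?_, ?_⟩
      · rw [Nat.mod_mod, e]
        rcases tri (i + (L - 2)) (i + (L - 2) + 2) (i + (L - 2) + 4)
          (by omega) (by omega) (by omega) with h' | h' | h'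
        · exact absurd h' (no2 _)
        · rwa [Nat.add_comm 4]
        · exact absurd h' (no2 (i + (L - 2) + 2))
      · rw [e, e, show 2 + (i + (L - 2)) = i + L by omega,
          show 5 + (i + (L - 2)) = i + 3 + L by omega, Nat.add_mod_right, Nat.add_mod_right]
        exact hi
    · push Not at h3
      refine ⟨0, by omega, 5, 6, Or.inr ⟨rfl, rfl⟩, ?_, ?_⟩
      · rcases tri 0 2 5 (by omega) (by omega) (by omega) with h' | h' | h'
        · exact absurd h' (no2 0)
        · exact h'
        · exact absurd h' (h3 2)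
      · rcases tri 2 4 6 (by omega) (by omega) (by omega) with h' | h' | h'
        · exact absurd h' (no2 2)
        · exact h'
        · exact absurd h' (no2 4)
  obtain ⟨hf, hcl⟩ := cyc_rot (by omega) hs hf0 hcl0
  set f : ℕ → V := fun i => f0 ((i + s) % L) with hfdef
  have hfY : ∀ i, f i ∈ Y :=
    fun i => hfY0 _ (by have := Nat.mod_lt (i + s) (by omega : 0 < L); omega)
  have ha : G.Adj (f 0) (f p) := by simpa [hfdef] using h04
  have hb : G.Adj (f 2) (f q) := by simpa [hfdef] using h25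
  have hq : q = p + 1 ∧ 4 ≤ p ∧ p ≤ 5 := by omega
  have hmid : IsP G (fun t => f (2 + (p - 2 - t))) (p - 2) :=
    (hf.shift (a := 2) (b := p - 2) (by omega)).rev
  have h1 := hmid.cat (hf.shift (a := q) (b := L - 1 - q) (by omega))
    (by simpa using hb) (fun i hi j hj he => by
      have := hf.1 _ _ (by omega) (by omega) he
      omega)
  have h2' := (isP_const (G := G) (f 0)).cat h1 (by
      rw [cat_zero]
      show G.Adj (f 0) (f (2 + (p - 2 - 0)))
      rwa [show 2 + (p - 2 - 0) = p by omega]) (fun i _ j hj he => by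
      rcases cat_cases (f := fun t => f (2 + (p - 2 - t))) (g := fun t => f (q + t)) hj with
        ⟨c, hc, e, -⟩ | ⟨c, hc, e, -⟩ <;> rw [e] at he
      · have := hf.1 _ _ (Nat.zero_le _) (by omega) he
        omega
      · have := hf.1 _ _ (Nat.zero_le _) (by omega) he
        omega)
  rw [show 0 + 1 + (p - 2 + 1 + (L - 1 - q)) = L - 1 - 1 by omega] at h2'
  refine ⟨by omega, _, h2', ?_, fun i hi => ?_⟩
  · rw [cat_zero, show L - 1 - 1 = 0 + 1 + (p - 2 + 1 + (L - 1 - q)) by omega, cat_last, cat_last,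
      show q + (L - 1 - q) = L - 1 by omega]
    exact hcl
  · exact cat_mem (P := fun x => x ∈ Y) (fun _ _ => hfY 0)
      (cat_mem (P := fun x => x ∈ Y) (s := L - 1 - q) (fun _ _ => hfY _) (fun _ _ => hfY _))
      i (by omega)

/-- The general lemma: no cycle on `m` vertices and no clique on more than `c` vertices. -/
theorem card_le_of_alpha_two' {Y : Finset V} {m c : ℕ} (hm : 10 ≤ m) (hno : ¬ HasCyc G m)
    (hclq : ∀ S, S ⊆ Y → G.IsClique (S : Set V) → S.card ≤ c) (h : alpha G Y ≤ 2) :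
    Y.card ≤ max (m - 1) (2 * c + 1) := by
  by_contra hbig
  -- some cycle exists: a triangle
  have tri : CycIn G Y 3 := by
    obtain ⟨v, hv⟩ := Finset.card_pos.1 (by omega : 0 < Y.card)
    have hT : ∃ x ∈ Y, ∃ y ∈ Y, ∃ z ∈ Y, G.Adj x y ∧ G.Adj y z ∧ G.Adj z x := by
      by_contra hcon
      push Not at hcon
      have h1 := card_le_nb_add (G := G) (X := Y) (v := v)
      by_cases h3 : 3 ≤ (nb G v Y).card
      · obtain ⟨x, hx, y, hy, hxy⟩ := exists_adj h (s := nb G v Y) (Finset.filter_subset _ _)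
          (by omega : 2 < (nb G v Y).card)
        rw [mem_nb] at hx hy
        exact hcon v hv x hx.1 y hy.1 hx.2 hxy hy.2.symm
      · have hc : G.IsClique ((Y.filter fun y => y ≠ v ∧ ¬ G.Adj v y : Finset V) : Set V) :=
          clique_of_alpha_le_one (by have := alpha_nonnb h hv; omega)
        obtain ⟨x, y, z, hx, hy, hz, hxy, hxz, hyz⟩ := Finset.two_lt_card_iff.1
          (by omega : 2 < (Y.filter fun y => y ≠ v ∧ ¬ G.Adj v y).card)
        exact hcon x (Finset.mem_filter.1 hx).1 y (Finset.mem_filter.1 hy).1 z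
          (Finset.mem_filter.1 hz).1 (hc hx hy hxy) (hc hy hz hyz) (hc hz hx hxz.symm)
    obtain ⟨x, hx, y, hy, z, hz, hxy, hyz, hzx⟩ := hT
    refine ⟨le_rfl, cat (fun _ => x) 0 (cat (fun _ => y) 0 (fun _ => z)), ?_, ?_, ?_⟩
    · exact (isP_const x).cat ((isP_const y).cat (isP_const z) hyz (fun _ _ _ _ => hyz.ne))
        (by rw [cat_zero]; exact hxy) (fun i _ j hj =>
          cat_mem (P := fun t => x ≠ t) (fun _ _ => hxy.ne) (fun _ _ => hzx.ne.symm) j hj)
    · exact hzx
    · intro i hi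
      exact cat_mem (P := fun t => t ∈ Y) (s := 0 + 1 + 0) (fun _ _ => hx)
        (cat_mem (P := fun t => t ∈ Y) (fun _ _ => hy) (fun _ _ => hz)) i (by omega)
  -- a longest cycle
  have hLle : ∀ {L}, CycIn G Y L → L ≤ Y.card := by
    rintro L ⟨hL, f, hf, -, hfY⟩
    have h1 := hf.card_img
    have h2 : img f (L - 1) ⊆ Y := fun x hx => by
      obtain ⟨i, hi, rfl⟩ := mem_img.1 hx
      exact hfY i hi
    have := Finset.card_le_card h2
    omega
  obtain ⟨L, hL, hLmax⟩ : ∃ L, CycIn G Y L ∧ ∀ L', CycIn G Y L' → L' ≤ L :=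
    ⟨Nat.findGreatest (CycIn G Y) Y.card,
      Nat.findGreatest_spec (hLle tri) tri, fun L' hL' => Nat.le_findGreatest (hLle hL') hL'⟩
  by_cases hspan : L = Y.card
  · -- go down to length `m`
    have down : ∀ j, j + m ≤ L → CycIn G Y (L - j) := by
      intro j
      induction j with
      | zero => exact fun _ => hL
      | succ j ih =>
        intro hj
        have := (ih (by omega)).down h (by omega)
        rwa [show L - j - 1 = L - (j + 1) by omega] at this
    obtain ⟨-, f, hf, hcl, -⟩ := down (L - m) (by omega)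
    rw [show L - (L - m) = m by omega] at hf hcl
    exact hno ⟨f, m - 1, by omega, hf, hcl⟩
  obtain ⟨hL3, f, hf, hcl, hfY⟩ := hL
  have hC : img f (L - 1) ⊆ Y := fun x hx => by
    obtain ⟨i, hi, rfl⟩ := mem_img.1 hx
    exact hfY i hi
  have hCc : (img f (L - 1)).card = L := by rw [hf.card_img]; omega
  obtain ⟨o, ho⟩ : ∃ o, o ∈ Y \ img f (L - 1) := by
    refine Finset.card_pos.1 ?_
    rw [Finset.card_sdiff_of_subset hC, hCc]
    have := Finset.card_le_card hC
    omega
  -- outside vertices have at most one neighbour on the cycle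
  have one : ∀ v ∈ Y \ img f (L - 1), ∀ i j, i < L → j < L → G.Adj v (f i) → G.Adj v (f j) →
      i = j := by
    intro v hv
    rw [Finset.mem_sdiff] at hv
    have longer : ∀ c : ℕ → V, IsP G c (L - 1) → (∀ i, i ≤ L - 1 → c i ∈ img f (L - 1)) →
        G.Adj v (c (L - 1)) → G.Adj v (c 0) → False := by
      intro c hc hcY h1 h2
      have hP := hc.cat (isP_const v) h1.symm
        (fun i hi _ _ he => hv.2 (he ▸ hcY i hi))
      rw [show L - 1 + 1 + 0 = L by omega] at hP
      have := hLmax (L + 1) ⟨by omega, cat c (L - 1) (fun _ => v), by simpa using hP, by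
        rw [cat_zero, cat_gt (by omega)]
        exact h2, fun i hi => cat_mem (P := fun t => t ∈ Y) (s := 0)
          (fun a ha => hC (hcY a ha)) (fun _ _ => hv.1) i (by omega)⟩
      omega
    intro i j hi hj hvi hvj
    by_contra hne
    -- rotate so that `i` is last
    obtain ⟨hg, hgcl⟩ := cyc_rot (by omega) (Nat.mod_lt (i + 1) (by omega : 0 < L)) hf hcl
    set g : ℕ → V := fun t => f ((t + (i + 1) % L) % L) with hgdef
    have hgimg : ∀ t, g t ∈ img f (L - 1) := fun t =>
      mem_img.2 ⟨_, by have := Nat.mod_lt (t + (i + 1) % L) (by omega : 0 < L); omega, rfl⟩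
    have hlast : g (L - 1) = f i := by
      simp only [hgdef]
      rw [Nat.add_mod_mod, show L - 1 + (i + 1) = i + L by omega, Nat.add_mod_right,
        Nat.mod_eq_of_lt hi]
    obtain ⟨t, ht, htj⟩ : ∃ t, t < L - 1 ∧ g t = f j := by
      rcases Nat.lt_or_ge i j with h' | h'
      · refine ⟨j - (i + 1), by omega, ?_⟩
        simp only [hgdef]
        rw [Nat.add_mod_mod, show j - (i + 1) + (i + 1) = j by omega, Nat.mod_eq_of_lt hj]
      · refine ⟨j + L - (i + 1), by omega, ?_⟩
        simp only [hgdef]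
        rw [Nat.add_mod_mod, show j + L - (i + 1) + (i + 1) = j + L by omega, Nat.add_mod_right,
          Nat.mod_eq_of_lt hj]
    have hgL : G.Adj v (g (L - 1)) := hlast ▸ hvi
    have hgt : G.Adj v (g t) := htj ▸ hvj
    by_cases hc1 : G.Adj v (g 0)
    · exact longer g hg (fun a _ => hgimg a) hgL hc1
    by_cases hc2 : G.Adj v (g (t + 1))
    · obtain ⟨hg2, -⟩ := cyc_rot (by omega) (by omega : t + 1 < L) hg hgcl
      refine longer _ hg2 (fun a _ => hgimg _) ?_ ?_
      · rwa [show L - 1 + (t + 1) = t + L by omega, Nat.add_mod_right, Nat.mod_eq_of_lt (by omega)]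
      · rwa [Nat.zero_add, Nat.mod_eq_of_lt (by omega)]
    have ht1 : t + 1 < L - 1 := by
      by_contra hcon
      exact hc2 ((show t + 1 = L - 1 by omega) ▸ hgL)
    have hadj : G.Adj (g 0) (g (t + 1)) := by
      have hne' : ∀ a, a ≤ L - 1 → v ≠ g a := fun a _ he => hv.2 (he ▸ hgimg a)
      rcases adj_of_three h hv.1 (hC (hgimg 0)) (hC (hgimg (t + 1))) (hne' 0 (by omega))
        (hne' _ (by omega))
        (fun he => by have := hg.1 _ _ (by omega) (by omega) he; omega) with h' | h' | h'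
      · exact absurd h' hc1
      · exact absurd h' hc2
      · exact h'
    have hP := (hg.mono (by omega : t ≤ L - 1)).rev.cat
      (hg.shift (a := t + 1) (b := L - 1 - (t + 1)) (by omega))
      (by simpa using hadj) (fun a ha b hb he => by
        have := hg.1 _ _ (by omega) (by omega) he
        omega)
    rw [show t + 1 + (L - 1 - (t + 1)) = L - 1 by omega] at hP
    refine longer _ hP (fun a ha => cat_mem (P := fun x => x ∈ img f (L - 1))
      (s := L - 1 - (t + 1)) (fun _ _ => hgimg _) (fun _ _ => hgimg _) a (by omega)) ?_ ?_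
    · rw [cat_gt (by omega), show t + 1 + (L - 1 - (t + 1)) = L - 1 by omega]
      exact hgL
    · rw [cat_zero]
      simpa using hgt
  -- outside is a clique
  have hO : G.IsClique ((Y \ img f (L - 1) : Finset V) : Set V) := by
    intro x hx y hy hxy
    rw [Finset.mem_coe] at hx hy
    by_contra hcon
    have hcnt : ((Finset.range L).filter fun i => G.Adj x (f i) ∨ G.Adj y (f i)).card ≤ 2 := by
      rw [Finset.filter_or]
      refine (Finset.card_union_le _ _).trans ((Nat.add_le_add (b := 1) (d := 1) ?_ ?_).trans (by omega))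
      · refine Finset.card_le_one.2 fun a ha b hb => ?_
        simp only [Finset.mem_filter, Finset.mem_range] at ha hb
        exact one x hx a b ha.1 hb.1 ha.2 hb.2
      · refine Finset.card_le_one.2 fun a ha b hb => ?_
        simp only [Finset.mem_filter, Finset.mem_range] at ha hb
        exact one y hy a b ha.1 hb.1 ha.2 hb.2
    obtain ⟨c, hc, hcn⟩ := Finset.exists_mem_notMem_of_card_lt_card
      (t := Finset.range L) (lt_of_le_of_lt hcnt (by rw [Finset.card_range]; omega))
    simp only [Finset.mem_filter, hc, true_and] at hcn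
    push Not at hcn
    rw [Finset.mem_sdiff] at hx hy
    have hcI : f c ∈ img f (L - 1) :=
      mem_img.2 ⟨c, by simp only [Finset.mem_range] at hc; omega, rfl⟩
    rcases adj_of_three h hx.1 hy.1 (hC hcI) hxy (fun e => hx.2 (e ▸ hcI))
      (fun e => hy.2 (e ▸ hcI)) with h' | h' | h'
    · exact hcon h'
    · exact hcn.1 h'
    · exact hcn.2 h'
  -- the cycle minus the neighbours of `o` is a clique
  have hC' : G.IsClique ((img f (L - 1) \ nb G o Y : Finset V) : Set V) := by
    intro x hx y hy hxy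
    rw [Finset.mem_coe, Finset.mem_sdiff, mem_nb] at hx hy
    rw [Finset.mem_sdiff] at ho
    rcases adj_of_three h ho.1 (hC hx.1) (hC hy.1) (fun e => ho.2 (e ▸ hx.1))
      (fun e => ho.2 (e ▸ hy.1)) hxy with h' | h' | h'
    · exact absurd ⟨hC hx.1, h'⟩ hx.2
    · exact absurd ⟨hC hy.1, h'⟩ hy.2
    · exact h'
  have h1 := hclq _ Finset.sdiff_subset hO
  have h2 := hclq _ (Finset.sdiff_subset.trans hC) hC'
  have h3 : (img f (L - 1) ∩ nb G o Y).card ≤ 1 := by
    refine Finset.card_le_one.2 fun a ha b hb => ?_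
    rw [Finset.mem_inter, mem_img, mem_nb] at ha hb
    obtain ⟨⟨i, hi, rfl⟩, -, ha⟩ := ha
    obtain ⟨⟨j, hj, rfl⟩, -, hb⟩ := hb
    rw [one o ho i j (by omega) (by omega) ha hb]
  have h4 := Finset.card_sdiff_add_card_inter (img f (L - 1)) (nb G o Y)
  rw [Finset.card_sdiff_of_subset hC, hCc] at h1
  have := Finset.card_le_card hC
  omega

/-- The lemma. -/
theorem card_le_of_alpha_two {Y : Finset V} {m : ℕ} (hm : 10 ≤ m) (hno : ¬ HasCyc G m)
    (hK : ∀ K, K ⊆ Y → K.card = m / 2 → ¬ G.IsClique (K : Set V)) (h : alpha G Y ≤ 2) :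
    Y.card ≤ m - 1 := by
  refine (card_le_of_alpha_two' (c := m / 2 - 1) hm hno (fun S hS hc => ?_) h).trans (by omega)
  by_contra hge
  obtain ⟨T, hT, hTc⟩ := Finset.exists_subset_card_eq (by omega : m / 2 ≤ S.card)
  exact hK T (hT.trans hS) hTc (hc.subset (Finset.coe_subset.2 hT))

end Vale.Agent.P048
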