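import Mathlib

/-!
P048 basics: the independence number of a finite vertex set, paths and cycles given by
functions on initial segments of the naturals, and reachability inside a vertex set.
-/

open scoped Classical

namespace Vale.Agent.P048

variable {V : Type*} {G : SimpleGraph V}

/-- `s` spans no edge. -/
def Indep (G : SimpleGraph V) (s : Finset V) : Prop :=
  ∀ x ∈ s, ∀ y ∈ s, ¬ G.Adj x y

/-- The largest size of an independent subset of `Y`. -/
noncomputable def alpha (G : SimpleGraph V) (Y : Finset V) : ℕ :=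
  (Y.powerset.filter (fun s => Indep G s)).sup Finset.card

lemma Indep.subset {s t : Finset V} (h : Indep G t) (hst : s ⊆ t) : Indep G s :=
  fun x hx y hy => h x (hst hx) y (hst hy)

lemma Indep.union {s t : Finset V} (hs : Indep G s) (ht : Indep G t)
    (h : ∀ x ∈ s, ∀ y ∈ t, ¬ G.Adj x y) : Indep G (s ∪ t) := by
  intro x hx y hy
  rcases Finset.mem_union.1 hx with hx | hx <;> rcases Finset.mem_union.1 hy with hy | hy
  · exact hs x hx y hy
  · exact h x hx y hy
  · exact fun a => h y hy x hx a.symm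
  · exact ht x hx y hy

lemma le_alpha {s Y : Finset V} (h1 : s ⊆ Y) (h2 : Indep G s) : s.card ≤ alpha G Y := by
  unfold alpha
  exact Finset.le_sup (f := Finset.card)
    (Finset.mem_filter.2 ⟨Finset.mem_powerset.2 h1, h2⟩)

lemma exists_alpha (G : SimpleGraph V) (Y : Finset V) :
    ∃ s, s ⊆ Y ∧ Indep G s ∧ s.card = alpha G Y := by
  have hne : (Y.powerset.filter (fun s => Indep G s)).Nonempty :=
    ⟨∅, Finset.mem_filter.2 ⟨Finset.empty_mem_powerset Y, by simp [Indep]⟩⟩
  obtain ⟨s, hs, he⟩ := Finset.exists_mem_eq_sup _ hne Finset.card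
  rw [Finset.mem_filter, Finset.mem_powerset] at hs
  exact ⟨s, hs.1, hs.2, he.symm⟩

lemma exists_indep {Y : Finset V} {j : ℕ} (h : j ≤ alpha G Y) :
    ∃ s, s ⊆ Y ∧ Indep G s ∧ s.card = j := by
  obtain ⟨s, h1, h2, h3⟩ := exists_alpha G Y
  obtain ⟨t, ht, hc⟩ := Finset.exists_subset_card_eq (h3.symm ▸ h : j ≤ s.card)
  exact ⟨t, ht.trans h1, h2.subset ht, hc⟩

lemma alpha_mono {Y Z : Finset V} (h : Y ⊆ Z) : alpha G Y ≤ alpha G Z := by
  obtain ⟨s, h1, h2, h3⟩ := exists_alpha G Y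
  rw [← h3]
  exact le_alpha (h1.trans h) h2

lemma alpha_le {Y : Finset V} {k : ℕ} (h : ∀ s, s ⊆ Y → Indep G s → s.card ≤ k) :
    alpha G Y ≤ k := by
  obtain ⟨s, h1, h2, h3⟩ := exists_alpha G Y
  rw [← h3]
  exact h s h1 h2

lemma one_le_alpha {Y : Finset V} (h : Y.Nonempty) : 1 ≤ alpha G Y := by
  obtain ⟨v, hv⟩ := h
  have := le_alpha (G := G) (s := {v}) (Finset.singleton_subset_iff.2 hv) (by simp [Indep])
  simpa using this

lemma exists_adj {s Y : Finset V} {k : ℕ} (h : alpha G Y ≤ k) (hs : s ⊆ Y) (hc : k < s.card) :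
    ∃ x ∈ s, ∃ y ∈ s, G.Adj x y := by
  by_contra hcon
  push Not at hcon
  have := le_alpha hs hcon
  omega

lemma clique_of_alpha_le_one {Y : Finset V} (h : alpha G Y ≤ 1) :
    G.IsClique (Y : Set V) := by
  intro x hx y hy hxy
  obtain ⟨a, ha, b, hb, hab⟩ := exists_adj h (s := {x, y})
    (Finset.insert_subset (Finset.mem_coe.1 hx) (Finset.singleton_subset_iff.2 (Finset.mem_coe.1 hy)))
    (by rw [Finset.card_pair hxy]; omega)
  simp only [Finset.mem_insert, Finset.mem_singleton] at ha hb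
  rcases ha with rfl | rfl <;> rcases hb with rfl | rfl
  · exact absurd hab G.irrefl
  · exact hab
  · exact hab.symm
  · exact absurd hab G.irrefl

lemma alpha_add {A B X : Finset V} (hA : A ⊆ X) (hB : B ⊆ X) (hd : Disjoint A B)
    (h : ∀ x ∈ A, ∀ y ∈ B, ¬ G.Adj x y) : alpha G A + alpha G B ≤ alpha G X := by
  obtain ⟨s, hs, hsi, hsc⟩ := exists_alpha G A
  obtain ⟨t, ht, hti, htc⟩ := exists_alpha G B
  have := le_alpha (G := G) (s := s ∪ t) (Y := X)
    (Finset.union_subset (hs.trans hA) (ht.trans hB))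
    (hsi.union hti fun x hx y hy => h x (hs hx) y (ht hy))
  rw [Finset.card_union_of_disjoint (hd.mono hs ht)] at this
  omega

/-- The neighbours of `v` in `Y`. -/
noncomputable def nb (G : SimpleGraph V) (v : V) (Y : Finset V) : Finset V :=
  Y.filter (fun y => G.Adj v y)

lemma mem_nb {v y : V} {Y : Finset V} : y ∈ nb G v Y ↔ y ∈ Y ∧ G.Adj v y := by simp [nb]

/-- `f 0, …, f r` is a path. -/
def IsP (G : SimpleGraph V) (f : ℕ → V) (r : ℕ) : Prop :=
  (∀ i j, i ≤ r → j ≤ r → f i = f j → i = j) ∧ ∀ i, i < r → G.Adj (f i) (f (i + 1))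

/-- `G` has a cycle on exactly `m` vertices. -/
def HasCyc (G : SimpleGraph V) (m : ℕ) : Prop :=
  ∃ f r, r + 1 = m ∧ IsP G f r ∧ G.Adj (f r) (f 0)

/-- `f 0, …, f r` followed by `g 0, g 1, …`. -/
def cat (f : ℕ → V) (r : ℕ) (g : ℕ → V) : ℕ → V :=
  fun i => if i ≤ r then f i else g (i - (r + 1))

lemma cat_le {f g : ℕ → V} {r i : ℕ} (h : i ≤ r) : cat f r g i = f i := if_pos h

lemma cat_zero {f g : ℕ → V} {r : ℕ} : cat f r g 0 = f 0 := cat_le (Nat.zero_le r)

lemma cat_gt {f g : ℕ → V} {r i : ℕ} (h : r < i) : cat f r g i = g (i - (r + 1)) :=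
  if_neg (by omega)

lemma cat_last {f g : ℕ → V} {r s : ℕ} : cat f r g (r + 1 + s) = g s := by
  rw [cat_gt (by omega)]
  congr 1
  omega

lemma cat_cases {f g : ℕ → V} {r s i : ℕ} (h : i ≤ r + 1 + s) :
    (∃ a, a ≤ r ∧ cat f r g i = f a ∧ i = a) ∨
      ∃ b, b ≤ s ∧ cat f r g i = g b ∧ i = r + 1 + b := by
  by_cases hi : i ≤ r
  · exact Or.inl ⟨i, hi, cat_le hi, rfl⟩
  · exact Or.inr ⟨i - (r + 1), by omega, cat_gt (by omega), by omega⟩

lemma cat_mem {f g : ℕ → V} {r s : ℕ} {P : V → Prop} (h1 : ∀ i, i ≤ r → P (f i))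
    (h2 : ∀ j, j ≤ s → P (g j)) : ∀ i, i ≤ r + 1 + s → P (cat f r g i) := by
  intro i hi
  rcases cat_cases (f := f) (g := g) hi with ⟨a, ha, he, -⟩ | ⟨b, hb, he, -⟩ <;> rw [he]
  · exact h1 a ha
  · exact h2 b hb

lemma IsP.cat {f g : ℕ → V} {r s : ℕ} (hf : IsP G f r) (hg : IsP G g s)
    (hadj : G.Adj (f r) (g 0)) (hd : ∀ i, i ≤ r → ∀ j, j ≤ s → f i ≠ g j) :
    IsP G (P048.cat f r g) (r + 1 + s) := by
  refine ⟨fun i j hi hj he => ?_, fun i hi => ?_⟩
  · rcases cat_cases (f := f) (g := g) hi with ⟨a, ha, ea, rfl⟩ | ⟨a, ha, ea, rfl⟩ <;>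
      rcases cat_cases (f := f) (g := g) hj with ⟨b, hb, eb, rfl⟩ | ⟨b, hb, eb, rfl⟩ <;>
      rw [ea, eb] at he
    · exact hf.1 _ _ ha hb he
    · exact absurd he (hd _ ha _ hb)
    · exact absurd he.symm (hd _ hb _ ha)
    · rw [hg.1 _ _ ha hb he]
  · rcases lt_trichotomy i r with h | h | h
    · rw [cat_le (by omega), cat_le (by omega)]
      exact hf.2 i h
    · subst h
      rw [cat_le le_rfl, cat_gt (by omega), Nat.sub_self]
      exact hadj
    · rw [cat_gt h, cat_gt (by omega)]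
      have := hg.2 (i - (r + 1)) (by omega)
      rwa [show i + 1 - (r + 1) = i - (r + 1) + 1 by omega]

lemma IsP.mono {f : ℕ → V} {r s : ℕ} (h : IsP G f r) (hs : s ≤ r) : IsP G f s :=
  ⟨fun i j hi hj => h.1 i j (hi.trans hs) (hj.trans hs), fun i hi => h.2 i (by omega)⟩

lemma IsP.shift {f : ℕ → V} {r a b : ℕ} (h : IsP G f r) (hab : a + b ≤ r) :
    IsP G (fun i => f (a + i)) b := by
  refine ⟨fun i j hi hj he => ?_, fun i hi => h.2 (a + i) (by omega)⟩
  have := h.1 (a + i) (a + j) (by omega) (by omega) he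
  omega

lemma IsP.rev {f : ℕ → V} {r : ℕ} (h : IsP G f r) : IsP G (fun i => f (r - i)) r := by
  refine ⟨fun i j hi hj he => ?_, fun i hi => ?_⟩
  · have := h.1 (r - i) (r - j) (by omega) (by omega) he
    omega
  · have := (h.2 (r - (i + 1)) (by omega)).symm
    rwa [show r - (i + 1) + 1 = r - i by omega] at this

lemma isP_const (v : V) : IsP G (fun _ => v) 0 :=
  ⟨fun i j hi hj _ => by omega, fun i hi => absurd hi (Nat.not_lt_zero i)⟩

/-- The vertices of a path. -/
noncomputable def img (f : ℕ → V) (r : ℕ) : Finset V := (Finset.range (r + 1)).image f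

lemma mem_img {f : ℕ → V} {r : ℕ} {v : V} : v ∈ img f r ↔ ∃ i, i ≤ r ∧ f i = v := by
  simp [img]

lemma card_img_le (f : ℕ → V) (r : ℕ) : (img f r).card ≤ r + 1 :=
  Finset.card_image_le.trans (by simp)

lemma IsP.card_img {f : ℕ → V} {r : ℕ} (h : IsP G f r) : (img f r).card = r + 1 := by
  unfold img
  rw [Finset.card_image_of_injOn, Finset.card_range]
  intro i hi j hj he
  simp only [Finset.coe_range, Set.mem_Iio] at hi hj
  exact h.1 i j (by omega) (by omega) he

/-- Omit everything strictly between positions `p` and `q`. -/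
def skipTo (f : ℕ → V) (p q : ℕ) : ℕ → V := cat f p (fun i => f (q + i))

lemma isP_skipTo {f : ℕ → V} {r p q : ℕ} (h : IsP G f r) (hpq : p < q) (hq : q ≤ r)
    (ha : G.Adj (f p) (f q)) : IsP G (skipTo f p q) (p + 1 + (r - q)) := by
  refine (h.mono (by omega)).cat (h.shift (by omega)) ha ?_
  intro i hi j hj he
  have := h.1 i (q + j) (by omega) (by omega) he
  omega

lemma skipTo_le {f : ℕ → V} {p q i : ℕ} (h : i ≤ p) : skipTo f p q i = f i := cat_le h

lemma skipTo_mem {f : ℕ → V} {r p q i : ℕ} (hpq : p < q) (hq : q ≤ r)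
    (hi : i ≤ p + 1 + (r - q)) :
    ∃ a, a ≤ r ∧ skipTo f p q i = f a ∧ (a = 0 ↔ i = 0) ∧ (a = r ↔ i = p + 1 + (r - q)) := by
  rcases cat_cases (f := f) (g := fun t => f (q + t)) hi with ⟨a, ha, he, rfl⟩ | ⟨b, hb, he, rfl⟩
  · exact ⟨i, by omega, he, Iff.rfl, by omega⟩
  · exact ⟨q + b, by omega, he, by omega, by omega⟩

/-- Replace everything strictly between positions `p` and `q` by `u`. -/
def viaTo (f : ℕ → V) (p q : ℕ) (u : V) : ℕ → V :=
  cat f p (cat (fun _ => u) 0 (fun i => f (q + i)))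

lemma isP_viaTo {f : ℕ → V} {r p q : ℕ} {u : V} (h : IsP G f r) (hpq : p < q) (hq : q ≤ r)
    (ha : G.Adj u (f p)) (hb : G.Adj u (f q)) (hu : ∀ i, i ≤ r → f i ≠ u) :
    IsP G (viaTo f p q u) (p + 2 + (r - q)) := by
  have h1 : IsP G (cat (fun _ => u) 0 (fun i => f (q + i))) (0 + 1 + (r - q)) :=
    (isP_const u).cat (h.shift (by omega)) hb
      (fun i _ j hj he => hu (q + j) (by omega) he.symm)
  have h2 := (h.mono (by omega : p ≤ r)).cat h1 (by rw [cat_zero]; exact ha.symm) (by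
    intro i hi j hj he
    rcases cat_cases (f := fun _ => u) (g := fun t => f (q + t)) hj with
      ⟨a, -, e, -⟩ | ⟨b, hb', e, -⟩ <;> rw [e] at he
    · exact hu i (by omega) he
    · have := h.1 i (q + b) (by omega) (by omega) he
      omega)
  rwa [show p + 1 + (0 + 1 + (r - q)) = p + 2 + (r - q) by omega] at h2

lemma viaTo_le {f : ℕ → V} {p q i : ℕ} {u : V} (h : i ≤ p) : viaTo f p q u i = f i := cat_le h

lemma viaTo_mem {f : ℕ → V} {r p q i : ℕ} {u : V} (hpq : p < q) (hq : q ≤ r)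
    (hi : i ≤ p + 2 + (r - q)) :
    (0 < i ∧ i < p + 2 + (r - q) ∧ viaTo f p q u i = u) ∨
      ∃ a, a ≤ r ∧ viaTo f p q u i = f a ∧ (a = 0 ↔ i = 0) ∧
        (a = r ↔ i = p + 2 + (r - q)) := by
  rcases cat_cases (f := f) (g := cat (fun _ => u) 0 (fun t => f (q + t)))
      (s := 0 + 1 + (r - q)) (by omega : i ≤ p + 1 + (0 + 1 + (r - q))) with
    ⟨a, ha, he, rfl⟩ | ⟨b, hb, he, rfl⟩
  · exact Or.inr ⟨i, by omega, he, Iff.rfl, by omega⟩
  · rcases cat_cases (f := fun _ => u) (g := fun t => f (q + t)) hb with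
      ⟨c, hc, e, rfl⟩ | ⟨c, hc, e, rfl⟩ <;> rw [e] at he
    · exact Or.inl ⟨by omega, by omega, he⟩
    · exact Or.inr ⟨q + c, by omega, he, by omega, by omega⟩

/-- Two paths with the same end points and disjoint interiors close up to a cycle. -/
lemma HasCyc.of_paths {f g : ℕ → V} {r t m : ℕ} (hf : IsP G f r) (hg : IsP G g t)
    (e1 : f r = g 0) (e2 : g t = f 0) (ht : 0 < t)
    (hd : ∀ i, i ≤ r → ∀ j, 0 < j → j < t → f i ≠ g j) (hm : r + t = m) : HasCyc G m := by
  by_cases h1 : t = 1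
  · subst h1
    refine ⟨f, r, hm, hf, ?_⟩
    rw [e1, ← e2]
    exact hg.2 0 (by omega)
  · refine ⟨P048.cat f r (fun i => g (1 + i)), r + 1 + (t - 2), by omega,
      hf.cat (hg.shift (by omega)) ?_ (fun i hi j hj => hd i hi (1 + j) (by omega) (by omega)), ?_⟩
    · rw [e1]
      exact hg.2 0 (by omega)
    · rw [cat_last, cat_zero, ← e2, show 1 + (t - 2) = t - 1 by omega]
      have := hg.2 (t - 1) (by omega)
      rwa [show t - 1 + 1 = t by omega] at this

/-- Inserting apexes on distinct edges. -/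
lemma insert_many (s : Finset ℕ) (u : ℕ → V) : ∀ (f : ℕ → V) (r : ℕ), IsP G f r →
    (∀ p ∈ s, p < r ∧ G.Adj (u p) (f p) ∧ G.Adj (u p) (f (p + 1))) →
    (∀ p ∈ s, ∀ p' ∈ s, u p = u p' → p = p') →
    (∀ p ∈ s, ∀ i, i ≤ r → f i ≠ u p) →
    ∃ f', IsP G f' (r + s.card) ∧ f' 0 = f 0 ∧ f' (r + s.card) = f r ∧
      ∀ i, 0 < i → i < r + s.card →
        (∃ p ∈ s, f' i = u p) ∨ ∃ a, 0 < a ∧ a < r ∧ f' i = f a := by
  induction s using Finset.induction_on_max with
  | empty =>
    intro f r hf _ _ _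
    exact ⟨f, by simpa using hf, rfl, by simp,
      fun i h1 h2 => Or.inr ⟨i, h1, by simpa using h2, rfl⟩⟩
  | insert p s hlt ih =>
    intro f r hf hadj hinj hnot
    have hps : p ∉ s := fun h => lt_irrefl p (hlt p h)
    obtain ⟨hpr, ha, hb⟩ := hadj p (Finset.mem_insert_self _ _)
    have hP := isP_viaTo hf (Nat.lt_succ_self p) hpr ha hb
      (hnot p (Finset.mem_insert_self _ _))
    have hr : p + 2 + (r - (p + 1)) = r + 1 := by omega
    rw [hr] at hP
    have hsub : s ⊆ insert p s := Finset.subset_insert p s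
    have hA : ∀ a ∈ s, a < r + 1 ∧ G.Adj (u a) (viaTo f p (p + 1) (u p) a) ∧
        G.Adj (u a) (viaTo f p (p + 1) (u p) (a + 1)) := by
      intro a ha'
      have hap := hlt a ha'
      obtain ⟨-, h1, h2⟩ := hadj a (hsub ha')
      refine ⟨by omega, ?_, ?_⟩
      · rwa [viaTo_le (by omega)]
      · rwa [viaTo_le (by omega)]
    have hB : ∀ a ∈ s, ∀ i, i ≤ r + 1 → viaTo f p (p + 1) (u p) i ≠ u a := by
      intro a ha' i hi he
      rcases viaTo_mem (f := f) (u := u p) (Nat.lt_succ_self p) hpr (i := i)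
          (by omega) with ⟨-, -, e'⟩ | ⟨c, hc, e', -, -⟩ <;> rw [e'] at he
      · exact hps (hinj p (Finset.mem_insert_self _ _) a (hsub ha') he ▸ ha')
      · exact hnot a (hsub ha') c hc he
    obtain ⟨f', h1, h2, h3, h4⟩ := ih _ _ hP hA
      (fun a ha' b hb' => hinj a (hsub ha') b (hsub hb')) hB
    refine ⟨f', ?_, ?_, ?_, ?_⟩
    · rwa [Finset.card_insert_of_notMem hps,
        show r + (s.card + 1) = r + 1 + s.card by omega]
    · rw [h2, viaTo_le (Nat.zero_le p)]
    · rw [Finset.card_insert_of_notMem hps,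
        show r + (s.card + 1) = r + 1 + s.card by omega, h3]
      rcases viaTo_mem (f := f) (u := u p) (Nat.lt_succ_self p) hpr (i := r + 1)
          (by omega) with ⟨-, h, -⟩ | ⟨a, -, e, -, hh⟩
      · omega
      · rw [e, hh.2 (by omega)]
    · intro i hi0 hi
      rw [Finset.card_insert_of_notMem hps] at hi
      rcases h4 i hi0 (by omega) with ⟨a, ha', e⟩ | ⟨a, ha0, ha1, e⟩
      · exact Or.inl ⟨a, hsub ha', e⟩
      · rcases viaTo_mem (f := f) (u := u p) (Nat.lt_succ_self p) hpr (i := a)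
            (by omega) with ⟨-, -, e'⟩ | ⟨c, hc, e', h5, h6⟩
        · exact Or.inl ⟨p, Finset.mem_insert_self _ _, e.trans e'⟩
        · refine Or.inr ⟨c, ?_, ?_, e.trans e'⟩
          · rcases Nat.eq_zero_or_pos c with hc0 | hc0
            · have := h5.1 hc0
              omega
            · exact hc0
          · rcases Nat.lt_or_eq_of_le hc with hc0 | hc0
            · exact hc0
            · have := h6.1 hc0
              omega

/-- Deleting pairwise non-consecutive skippable vertices. -/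
lemma delete_many (s : Finset ℕ) : ∀ (f : ℕ → V) (r : ℕ), IsP G f r →
    (∀ o ∈ s, 0 < o ∧ o < r ∧ G.Adj (f (o - 1)) (f (o + 1))) →
    (∀ o ∈ s, o + 1 ∉ s) →
    ∃ f', IsP G f' (r - s.card) ∧ s.card < r + 1 ∧ f' 0 = f 0 ∧ f' (r - s.card) = f r ∧
      ∀ i, i ≤ r - s.card → ∃ a, a ≤ r ∧ f' i = f a := by
  induction s using Finset.induction_on_max with
  | empty =>
    intro f r hf _ _
    exact ⟨f, by simpa using hf, by simp, rfl, by simp,
      fun i hi => ⟨i, by simpa using hi, rfl⟩⟩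
  | insert p s hlt ih =>
    intro f r hf hadj hnc
    have hps : p ∉ s := fun h => lt_irrefl p (hlt p h)
    obtain ⟨hp0, hpr, ha⟩ := hadj p (Finset.mem_insert_self _ _)
    have hpq : p - 1 < p + 1 := by omega
    have hP := isP_skipTo hf hpq (by omega) ha
    have hr : p - 1 + 1 + (r - (p + 1)) = r - 1 := by omega
    rw [hr] at hP
    have hsub : s ⊆ insert p s := Finset.subset_insert p s
    have hA : ∀ o ∈ s, 0 < o ∧ o < r - 1 ∧
        G.Adj (skipTo f (p - 1) (p + 1) (o - 1)) (skipTo f (p - 1) (p + 1) (o + 1)) := by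
      intro o ho
      have h5 := hlt o ho
      have h6 : o + 1 ≠ p := fun h => hnc o (hsub ho) (h ▸ Finset.mem_insert_self _ _)
      obtain ⟨h7, -, h8⟩ := hadj o (hsub ho)
      refine ⟨h7, by omega, ?_⟩
      rwa [skipTo_le (by omega), skipTo_le (by omega)]
    obtain ⟨f', h1, h1', h2, h3, h4⟩ := ih _ _ hP hA
      (fun o ho h => hnc o (hsub ho) (hsub h))
    rw [Finset.card_insert_of_notMem hps,
      show r - (s.card + 1) = r - 1 - s.card by omega]
    refine ⟨f', h1, by omega, ?_, ?_, ?_⟩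
    · rw [h2, skipTo_le (Nat.zero_le _)]
    · obtain ⟨a, -, e, -, hh⟩ := skipTo_mem (f := f) hpq (by omega : p + 1 ≤ r)
        (i := r - 1) (by omega)
      rw [h3, e, hh.2 (by omega)]
    · intro i hi
      obtain ⟨a, ha', e⟩ := h4 i hi
      obtain ⟨c, hc, e', -, -⟩ := skipTo_mem (f := f) hpq (by omega : p + 1 ≤ r)
        (i := a) (by omega)
      exact ⟨c, hc, e.trans e'⟩

/-- Among `k + 1` alternate vertices of a path inside `X` two are adjacent. -/
lemma chord {f : ℕ → V} {r p k : ℕ} {X : Finset V} (hf : IsP G f r) (hp : p + 2 * k ≤ r)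
    (hX : ∀ i, p ≤ i → i ≤ p + 2 * k → f i ∈ X) (hk : alpha G X ≤ k) :
    ∃ i j, p ≤ i ∧ i + 2 ≤ j ∧ j ≤ p + 2 * k ∧ G.Adj (f i) (f j) := by
  have hinj : ∀ a ∈ Finset.range (k + 1), ∀ b ∈ Finset.range (k + 1),
      f (p + 2 * a) = f (p + 2 * b) → a = b := by
    intro a ha b hb he
    simp only [Finset.mem_range] at ha hb
    have := hf.1 _ _ (by omega) (by omega) he
    omega
  obtain ⟨x, hx, y, hy, hxy⟩ := exists_adj hk
    (s := (Finset.range (k + 1)).image fun a => f (p + 2 * a)) (by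
      intro x hx
      obtain ⟨a, ha, rfl⟩ := Finset.mem_image.1 hx
      simp only [Finset.mem_range] at ha
      exact hX _ (by omega) (by omega)) (by
      rw [Finset.card_image_of_injOn (fun a ha b hb => hinj a ha b hb), Finset.card_range]
      omega)
  obtain ⟨a, ha, rfl⟩ := Finset.mem_image.1 hx
  obtain ⟨b, hb, rfl⟩ := Finset.mem_image.1 hy
  simp only [Finset.mem_range] at ha hb
  rcases lt_trichotomy a b with h | h | h
  · exact ⟨_, _, by omega, by omega, by omega, hxy⟩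
  · exact absurd (h ▸ hxy) G.irrefl
  · exact ⟨_, _, by omega, by omega, by omega, hxy.symm⟩

/-- Inside a clique there are paths of all lengths between two given vertices. -/
lemma clique_path {S : Finset V} (hS : G.IsClique (S : Set V)) {v w : V} (hv : v ∈ S)
    (hw : w ∈ S) (hvw : v ≠ w) {t : ℕ} (ht0 : 0 < t) (ht : t + 1 ≤ S.card) :
    ∃ g, IsP G g t ∧ g 0 = v ∧ g t = w ∧ ∀ i, i ≤ t → g i ∈ S := by
  have hc : t - 1 ≤ ((S.erase v).erase w).card := by
    rw [Finset.card_erase_of_mem (Finset.mem_erase.2 ⟨hvw.symm, hw⟩),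
      Finset.card_erase_of_mem hv]
    omega
  obtain ⟨T, hT, hTc⟩ := Finset.exists_subset_card_eq hc
  let g : ℕ → V := fun i =>
    if i = 0 then v else if h : i - 1 < T.card then (T.equivFin.symm ⟨i - 1, h⟩ : V) else w
  have h0 : g 0 = v := if_pos rfl
  have hmid : ∀ i, 0 < i → i < t → g i ∈ (S.erase v).erase w := by
    intro i h1 h2
    simp only [g, if_neg (show ¬ i = 0 by omega), dif_pos (show i - 1 < T.card by omega)]
    exact hT (Subtype.prop _)
  have hlast : g t = w := by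
    simp only [g, if_neg (show ¬ t = 0 by omega), dif_neg (show ¬ t - 1 < T.card by omega)]
  have hmem : ∀ i, i ≤ t → g i ∈ S := by
    intro i hi
    rcases Nat.eq_zero_or_pos i with h | h
    · rw [h, h0]
      exact hv
    rcases Nat.lt_or_eq_of_le hi with h' | h'
    · exact Finset.mem_of_mem_erase (Finset.mem_of_mem_erase (hmid i h h'))
    · rw [h', hlast]
      exact hw
  have hinj : ∀ i j, i < j → j ≤ t → g i ≠ g j := by
    intro i j hij hj he
    rcases Nat.eq_zero_or_pos i with h | h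
    · rw [h, h0] at he
      rcases Nat.lt_or_eq_of_le hj with h' | h'
      · have := hmid j (by omega) h'
        rw [← he] at this
        exact (Finset.mem_erase.1 (Finset.mem_erase.1 this).2).1 rfl
      · rw [h', hlast] at he
        exact hvw he
    · have h1 := hmid i h (by omega)
      rcases Nat.lt_or_eq_of_le hj with h' | h'
      · simp only [g, if_neg (show ¬ i = 0 by omega), if_neg (show ¬ j = 0 by omega),
          dif_pos (show i - 1 < T.card by omega), dif_pos (show j - 1 < T.card by omega)] at he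
        have := T.equivFin.symm.injective (Subtype.ext he)
        simp only [Fin.mk.injEq] at this
        omega
      · rw [he, h', hlast] at h1
        exact (Finset.mem_erase.1 h1).1 rfl
  refine ⟨g, ⟨fun i j hi hj he => ?_, fun i hi => ?_⟩, h0, hlast, hmem⟩
  · rcases lt_trichotomy i j with h | h | h
    · exact absurd he (hinj i j h hj)
    · exact h
    · exact absurd he.symm (hinj j i h hi)
  · exact hS (hmem i (by omega)) (hmem (i + 1) hi) (hinj i (i + 1) (by omega) hi)

/-- The graph of the edges inside `S`. -/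
def GS (G : SimpleGraph V) (S : Finset V) : SimpleGraph V where
  Adj x y := G.Adj x y ∧ x ∈ S ∧ y ∈ S
  symm := ⟨fun _ _ h => ⟨h.1.symm, h.2.2, h.2.1⟩⟩
  loopless := ⟨fun _ h => G.irrefl h.1⟩

lemma mem_of_walk {S : Finset V} : ∀ {x y : V} (p : (GS G S).Walk x y), x ∈ S →
    ∀ i, p.getVert i ∈ S := by
  intro x y p
  induction p with
  | nil => intro hx i; simpa using hx
  | cons h p ih =>
    intro hx i
    cases i with
    | zero => simpa using hx
    | succ i => simpa using ih h.2.2 i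

lemma isP_walk {S : Finset V} {x y : V} (p : (GS G S).Walk x y) (hp : p.IsPath) :
    IsP G p.getVert p.length :=
  ⟨fun _ _ hi hj he => hp.getVert_injOn hi hj he, fun _ hi => (p.adj_getVert_succ hi).1⟩

lemma exists_isP {S : Finset V} {x y : V} (hx : x ∈ S) (h : (GS G S).Reachable x y) :
    ∃ g, IsP G g ((GS G S).dist x y) ∧ g 0 = x ∧ g ((GS G S).dist x y) = y ∧
      ∀ i, g i ∈ S := by
  obtain ⟨p, hp, hl⟩ := h.exists_path_of_dist
  exact ⟨p.getVert, hl ▸ isP_walk p hp, p.getVert_zero, hl ▸ p.getVert_length,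
    mem_of_walk p hx⟩

/-- The vertices of `S` joined to `c` inside `S`. -/
noncomputable def comp (G : SimpleGraph V) (S : Finset V) (c : V) : Finset V :=
  S.filter (fun x => (GS G S).Reachable c x)

lemma mem_comp {S : Finset V} {c x : V} :
    x ∈ comp G S c ↔ x ∈ S ∧ (GS G S).Reachable c x := by simp [comp]

lemma comp_subset {S : Finset V} {c : V} : comp G S c ⊆ S := Finset.filter_subset _ _

lemma self_mem_comp {S : Finset V} {c : V} (hc : c ∈ S) : c ∈ comp G S c :=
  mem_comp.2 ⟨hc, SimpleGraph.Reachable.refl c⟩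

lemma comp_closed {S : Finset V} {c x y : V} (hx : x ∈ comp G S c) (hy : y ∈ S)
    (h : G.Adj x y) : y ∈ comp G S c :=
  mem_comp.2 ⟨hy, (mem_comp.1 hx).2.trans
    (SimpleGraph.Adj.reachable (G := GS G S) ⟨h, (mem_comp.1 hx).1, hy⟩)⟩

/-- A finite set closed under adjacency inside `S` is a union of components. -/
lemma reach_closed {S B : Finset V} (hcl : ∀ x ∈ B, ∀ y ∈ S, G.Adj x y → y ∈ B) :
    ∀ {x y : V}, (GS G S).Walk x y → x ∈ B → y ∈ B := by
  intro x y p
  induction p with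
  | nil => exact id
  | cons h p ih => exact fun hx => ih (hcl _ hx _ h.2.2 h.1)

/-- `S` is connected. -/
def ConnOn (G : SimpleGraph V) (S : Finset V) : Prop :=
  ∀ B, B ⊆ S → B.Nonempty → (∀ x ∈ B, ∀ y ∈ S, G.Adj x y → y ∈ B) → S ⊆ B

lemma ConnOn.reachable {S : Finset V} (h : ConnOn G S) {x y : V} (hx : x ∈ S) (hy : y ∈ S) :
    (GS G S).Reachable x y :=
  (mem_comp.1 (h (comp G S x) comp_subset ⟨x, self_mem_comp hx⟩
    (fun _ ha _ hb hab => comp_closed ha hb hab) hy)).2

lemma comp_connOn (G : SimpleGraph V) (S : Finset V) (c : V) : ConnOn G (comp G S c) := by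
  intro B hB ⟨b, hb⟩ hcl x hx
  obtain ⟨p⟩ := ((mem_comp.1 (hB hb)).2.symm.trans (mem_comp.1 hx).2)
  exact reach_closed (S := S) (B := B)
    (fun a ha y hy hay => hcl a ha y (comp_closed (hB ha) hy hay) hay) p hb

lemma exists_isP_conn {S : Finset V} (h : ConnOn G S) {x y : V} (hx : x ∈ S) (hy : y ∈ S) :
    ∃ g, IsP G g ((GS G S).dist x y) ∧ g 0 = x ∧ g ((GS G S).dist x y) = y ∧ ∀ i, g i ∈ S :=
  exists_isP hx (h.reachable hx hy)

end Vale.Agent.P048
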