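import Vale.Agent.P048.EG

/-!
P048: the induction context, minimum degree, absence of cut vertices, and the lemma that a
minimal counterexample has no clique on `m / 2` vertices.
-/

open scoped Classical

namespace Vale.Agent.P048

variable {V : Type*} {G : SimpleGraph V}

/-- A counterexample `X` for `(m, k)`, all smaller independence numbers being fine. -/
structure Cx (G : SimpleGraph V) (m k : ℕ) (X : Finset V) : Prop where
  noc : ¬ HasCyc G m
  ih : ∀ Y, alpha G Y < k → Y.card ≤ (m - 1) * alpha G Y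
  alp : alpha G X ≤ k
  big : (m - 1) * k < X.card

lemma alpha_nonnb {X : Finset V} {v : V} {k : ℕ} (hk : alpha G X ≤ k) (hv : v ∈ X) :
    alpha G (X.filter fun y => y ≠ v ∧ ¬ G.Adj v y) + 1 ≤ k := by
  obtain ⟨s, hs, hsi, hsc⟩ := exists_alpha G (X.filter fun y => y ≠ v ∧ ¬ G.Adj v y)
  have hvs : v ∉ s := fun h => (Finset.mem_filter.1 (hs h)).2.1 rfl
  have := le_alpha (G := G) (s := insert v s) (Y := X)
    (Finset.insert_subset hv (hs.trans (Finset.filter_subset _ _))) (by
      intro x hx y hy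
      rw [Finset.mem_insert] at hx hy
      rcases hx with rfl | hx <;> rcases hy with rfl | hy
      · exact G.irrefl
      · exact (Finset.mem_filter.1 (hs hy)).2.2
      · exact fun h => (Finset.mem_filter.1 (hs hx)).2.2 h.symm
      · exact hsi x hx y hy)
  rw [Finset.card_insert_of_notMem hvs] at this
  omega

lemma card_le_nb_add {X : Finset V} {v : V} :
    X.card ≤ 1 + (nb G v X).card + (X.filter fun y => y ≠ v ∧ ¬ G.Adj v y).card := by
  have h : X ⊆ ({v} ∪ nb G v X) ∪ X.filter (fun y => y ≠ v ∧ ¬ G.Adj v y) := by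
    intro y hy
    simp only [Finset.mem_union, Finset.mem_singleton, mem_nb, Finset.mem_filter, hy, true_and]
    tauto
  refine (Finset.card_le_card h).trans ((Finset.card_union_le _ _).trans ?_)
  have := Finset.card_union_le {v} (nb G v X)
  rw [Finset.card_singleton] at this
  omega

lemma Cx.deg {m k : ℕ} {X : Finset V} (hC : Cx G m k X) {v : V} (hv : v ∈ X) :
    m - 1 ≤ (nb G v X).card := by
  have h1 := alpha_nonnb hC.alp hv
  have h2 := card_le_nb_add (G := G) (X := X) (v := v)
  have h3 := hC.ih _ (by omega : alpha G (X.filter fun y => y ≠ v ∧ ¬ G.Adj v y) < k)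
  have h4 := Nat.mul_le_mul_left (m - 1) h1
  rw [Nat.mul_add, Nat.mul_one] at h4
  have := hC.big
  omega

lemma Cx.cut {m k : ℕ} {X : Finset V} (hC : Cx G m k X) {w : V} {B : Finset V} (hB : B ⊆ X)
    (hw : w ∉ B) (hne : B.Nonempty)
    (hcl : ∀ x ∈ B, ∀ y ∈ X, G.Adj x y → y ∈ B ∨ y = w) : X.erase w ⊆ B := by
  intro z hz
  by_contra hzB
  set C := X.erase w \ B with hCdef
  have hCX : C ⊆ X := Finset.sdiff_subset.trans (Finset.erase_subset _ _)
  have hwC : w ∉ C := fun h => Finset.notMem_erase _ _ (Finset.sdiff_subset h)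
  have hCne : C.Nonempty := ⟨z, Finset.mem_sdiff.2 ⟨hz, hzB⟩⟩
  have hd : Disjoint B C := Finset.disjoint_sdiff
  have hanti : ∀ x ∈ B, ∀ y ∈ C, ¬ G.Adj x y := by
    intro x hx y hy hxy
    rcases hcl x hx y (hCX hy) hxy with h | h
    · exact (Finset.mem_sdiff.1 hy).2 h
    · exact hwC (h ▸ hy)
  have hab := (alpha_add hB hCX hd hanti).trans hC.alp
  have h1 := one_le_alpha (G := G) hne
  have h2 := one_le_alpha (G := G) hCne
  have hBc := hC.ih B (by omega)
  have hCc := hC.ih C (by omega)
  have hsub : X ⊆ insert w (B ∪ C) := by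
    intro y hy
    simp only [hCdef, Finset.mem_insert, Finset.mem_union, Finset.mem_sdiff, Finset.mem_erase, hy,
      and_true]
    tauto
  have hXc : X.card ≤ B.card + C.card + 1 :=
    (Finset.card_le_card hsub).trans ((Finset.card_insert_le _ _).trans
      (Nat.succ_le_succ (Finset.card_union_le _ _)))
  have hbig := hC.big
  have hmul := Nat.mul_le_mul_left (m - 1) hab
  rw [Nat.mul_add] at hmul
  by_cases hwX : w ∈ X
  · have key : ∀ A D : Finset V, A ⊆ X → w ∉ A → alpha G A + alpha G D ≤ k →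
        1 ≤ alpha G D → D.card ≤ (m - 1) * alpha G D → X.card ≤ A.card + D.card + 1 →
        ∃ s, s ⊆ insert w A ∧ Indep G s ∧ w ∈ s ∧ alpha G A + 1 ≤ s.card := by
      intro A D hA hwA hsum hD1 hDc hXAD
      have hge : alpha G A + 1 ≤ alpha G (insert w A) := by
        by_contra hlt
        have h3 := hC.ih (insert w A) (by omega)
        rw [Finset.card_insert_of_notMem hwA] at h3
        have h4 := Nat.mul_le_mul_left (m - 1)
          (by omega : alpha G (insert w A) ≤ alpha G A)
        have h5 := Nat.mul_le_mul_left (m - 1) hsum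
        rw [Nat.mul_add] at h5
        omega
      obtain ⟨s, hs, hsi, hsc⟩ := exists_indep hge
      refine ⟨s, hs, hsi, ?_, hsc.ge⟩
      by_contra hws
      have := le_alpha (G := G) (Y := A) (fun y hy => by
        have hyw : y ≠ w := fun h => hws (h ▸ hy)
        simpa [hyw] using hs hy) hsi
      omega
    obtain ⟨s, hs, hsi, hws, hsc⟩ := key B C hB hw hab h2 hCc hXc
    obtain ⟨t, ht, hti, hwt, htc⟩ := key C B hCX hwC (by omega) h1 hBc (by omega)
    have hdis : Disjoint s (t.erase w) := Finset.disjoint_left.2 fun y hy hy' => by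
      rw [Finset.mem_erase] at hy'
      have ha : y ∈ B := by simpa [hy'.1] using hs hy
      have hb : y ∈ C := by simpa [hy'.1] using ht hy'.2
      exact Finset.disjoint_left.1 hd ha hb
    have := le_alpha (G := G) (s := s ∪ t.erase w) (Y := X)
      (Finset.union_subset (hs.trans (Finset.insert_subset hwX hB))
        ((Finset.erase_subset _ _).trans (ht.trans (Finset.insert_subset hwX hCX))))
      (hsi.union (hti.subset (Finset.erase_subset _ _)) (by
        intro x hx y hy hxy
        rw [Finset.mem_erase] at hy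
        by_cases hxw : x = w
        · subst hxw
          exact hti x hwt y hy.2 hxy
        · exact hanti x (by simpa [hxw] using hs hx) y (by simpa [hy.1] using ht hy.2) hxy))
    rw [Finset.card_union_of_disjoint hdis, Finset.card_erase_of_mem hwt] at this
    have := hC.alp
    have hBpos := Finset.card_pos.2 hne
    rcases Nat.eq_zero_or_pos (m - 1) with hm0 | hm0
    · rw [hm0, Nat.zero_mul] at hBc
      omega
    by_cases hlt : alpha G B + alpha G C < k
    · have h5 := Nat.mul_le_mul_left (m - 1) hlt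
      rw [Nat.mul_succ, Nat.mul_add] at h5
      omega
    omega
  · have hsub' : X ⊆ B ∪ C := fun y hy => by
      rcases Finset.mem_insert.1 (hsub hy) with h | h
      · exact absurd (h ▸ hy) hwX
      · exact h
    have := (Finset.card_le_card hsub').trans (Finset.card_union_le _ _)
    omega

/-- An ear of the clique `K`: a path in `X` between two vertices of `K`, interior outside `K`. -/
def Ear (G : SimpleGraph V) (X K : Finset V) (r : ℕ) : Prop :=
  ∃ f, IsP G f r ∧ f 0 ∈ K ∧ f r ∈ K ∧ (∀ i, i ≤ r → f i ∈ X) ∧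
    ∀ i, 0 < i → i < r → f i ∉ K

lemma exists_ear {m k : ℕ} {X K : Finset V} (hC : Cx G m k X) (hm : 10 ≤ m) (hk : 1 ≤ k)
    (hK : K ⊆ X) (hKc : K.card = m / 2) :
    ∃ r, m - m / 2 + 1 ≤ r ∧ Ear G X K r := by
  have hKX : K.card < X.card := by
    have := Nat.mul_le_mul_left (m - 1) hk
    have := hC.big
    omega
  obtain ⟨a, haK, y0, hy0, hay0⟩ : ∃ a ∈ K, ∃ y ∈ X \ K, G.Adj a y := by
    by_contra hcon
    push Not at hcon
    obtain ⟨w, hw⟩ := Finset.card_pos.1 (by omega : 0 < K.card)
    obtain ⟨v, hv, hvK⟩ := Finset.exists_mem_notMem_of_card_lt_card hKX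
    have := hC.cut (B := K.erase w) ((Finset.erase_subset _ _).trans hK)
      (Finset.notMem_erase _ _)
      (Finset.card_pos.1 (by rw [Finset.card_erase_of_mem hw]; omega)) (by
      intro x hx y hy hxy
      by_cases hyw : y = w
      · exact Or.inr hyw
      refine Or.inl (Finset.mem_erase.2 ⟨hyw, ?_⟩)
      by_contra hyK
      exact hcon x (Finset.mem_of_mem_erase hx) y (Finset.mem_sdiff.2 ⟨hy, hyK⟩) hxy)
      (Finset.mem_erase.2 ⟨fun h => hvK (by rw [h]; exact hw), hv⟩)
    exact hvK (Finset.mem_of_mem_erase this)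
  obtain ⟨κ0, hκ0⟩ := Finset.card_pos.1
    (by rw [Finset.card_erase_of_mem haK]; omega : 0 < (K.erase a).card)
  have hκ0K : κ0 ∈ K := Finset.mem_of_mem_erase hκ0
  have hκ0a : κ0 ≠ a := (Finset.mem_erase.1 hκ0).1
  set D := comp G (X \ K) y0 with hD
  have hDX : D ⊆ X := comp_subset.trans Finset.sdiff_subset
  have hDK : ∀ x ∈ D, x ∉ K := fun x hx => (Finset.mem_sdiff.1 (comp_subset hx)).2
  have haD : a ∉ D := fun h => hDK a h haK
  have hκD : κ0 ∉ D := fun h => hDK κ0 h hκ0K
  have hy0D : y0 ∈ D := self_mem_comp hy0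
  have hDnb : ∀ x ∈ D, ∀ y ∈ X, G.Adj x y → y ∈ D ∨ y ∈ K := by
    intro x hx y hy hxy
    by_cases hyK : y ∈ K
    · exact Or.inr hyK
    · exact Or.inl (comp_closed hx (Finset.mem_sdiff.2 ⟨hy, hyK⟩) hxy)
  set G' : SimpleGraph V := SimpleGraph.fromRel
    (fun x y => G.Adj x y ∨ (x = κ0 ∧ y ∈ D ∧ ∃ z ∈ K.erase a, G.Adj y z)) with hG'
  have hle : ∀ {x y}, G.Adj x y → G'.Adj x y := by
    intro x y h
    exact ⟨h.ne, Or.inl (Or.inl h)⟩
  have hextra : ∀ {v z}, v ∈ D → z ∈ K.erase a → G.Adj v z → G'.Adj v κ0 := by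
    intro v z hv hz h
    exact ⟨fun e => hκD (e ▸ hv), Or.inr (Or.inr ⟨rfl, hv, z, hz, h⟩)⟩
  have hback : ∀ {x y}, G'.Adj x y → x ≠ κ0 → y ≠ κ0 → G.Adj x y := by
    rintro x y ⟨-, (h | ⟨h, -⟩) | (h | ⟨h, -⟩)⟩ hx hy
    · exact h
    · exact absurd h hx
    · exact h.symm
    · exact absurd h hy
  obtain ⟨f, r, hf, hdr, hf0, hfr, hfY⟩ := exists_long_path (G := G')
    (insert a (insert κ0 D)).card (insert a (insert κ0 D)) a κ0 (m - m / 2 + 1) le_rfl
    (by simp) (by simp) hκ0a.symm
    ⟨y0, by simp [hy0D], fun h => haD (h ▸ hy0D), fun h => hκD (h ▸ hy0D)⟩ (by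
      intro v hv hva hvκ
      have hvD : v ∈ D := by simpa [hva, hvκ] using hv
      have hdeg := hC.deg (hDX hvD)
      set L := nb G v (K.erase a) with hL
      have hsub : nb G v X ⊆ (nb G' v (insert a (insert κ0 D))).erase κ0 ∪ L := by
        intro y hy
        rw [mem_nb] at hy
        rw [Finset.mem_union, Finset.mem_erase, mem_nb, hL, mem_nb]
        rcases hDnb v hvD y hy.1 hy.2 with h | h
        · exact Or.inl ⟨fun e => hκD (e ▸ h), by simp [h], hle hy.2⟩
        · by_cases hya : y = a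
          · exact Or.inl ⟨fun e => hκ0a (e ▸ hya), by simp [hya], hle hy.2⟩
          · exact Or.inr ⟨Finset.mem_erase.2 ⟨hya, h⟩, hy.2⟩
      have hsz := (Finset.card_le_card hsub).trans (Finset.card_union_le _ _)
      rcases L.eq_empty_or_nonempty with hLe | ⟨z, hz⟩
      · have := Finset.card_erase_le (a := κ0) (s := nb G' v (insert a (insert κ0 D)))
        rw [hLe, Finset.card_empty] at hsz
        omega
      · rw [hL, mem_nb] at hz
        have hmem : κ0 ∈ nb G' v (insert a (insert κ0 D)) :=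
          mem_nb.2 ⟨by simp, hextra hvD hz.1 hz.2⟩
        rw [Finset.card_erase_of_mem hmem] at hsz
        have hLc : L.card ≤ K.card - 1 := by
          rw [← Finset.card_erase_of_mem haK]
          exact Finset.card_filter_le _ _
        omega) (by
      intro w B hB hw hne hcl
      by_contra hcon
      push Not at hcon
      have hBD : B ⊆ D := fun x hx => by
        have h1 : x ≠ a := fun h => hcon.1 (h ▸ hx)
        have h2 : x ≠ κ0 := fun h => hcon.2 (h ▸ hx)
        simpa [h1, h2] using hB hx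
      have hBY : ∀ x ∈ B, ∀ y ∈ D, G.Adj x y → y ∈ B ∨ y = w :=
        fun x hx y hy hxy => hcl x hx y (by simp [hy]) (hle hxy)
      have hall : w ∉ D → D ⊆ B := by
        intro hwD
        exact comp_connOn G (X \ K) y0 B hBD hne fun x hx y hy hxy =>
          (hBY x hx y hy hxy).resolve_right (fun e => hwD (e ▸ hy))
      by_cases hwκ : w = κ0
      · subst hwκ
        rcases hcl y0 (hall hκD hy0D) a (by simp) (hle hay0.symm) with h | h
        · exact hcon.1 h
        · exact hκ0a h.symm
      have hnoK : ∀ x ∈ B, ∀ z ∈ K.erase a, ¬ G.Adj x z := by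
        intro x hx z hz hxz
        rcases hcl x hx κ0 (by simp) (hextra (hBD hx) hz hxz) with h | h
        · exact hcon.2 h
        · exact hwκ h.symm
      have hcut := hC.cut (hBD.trans hDX) hw hne (fun x hx y hy hxy => by
        rcases hDnb x (hBD hx) y hy hxy with h | h
        · exact hBY x hx y h hxy
        · by_cases hya : y = a
          · exact hcl x hx y (by simp [hya]) (hle hxy)
          · exact absurd hxy (hnoK x hx y (Finset.mem_erase.2 ⟨hya, h⟩)))
      exact hκD (hBD (hcut (Finset.mem_erase.2 ⟨Ne.symm hwκ, hK hκ0K⟩))))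
  have hne : ∀ i, i < r → f i ≠ κ0 := fun i hi h => by
    have := hf.1 i r hi.le le_rfl (h.trans hfr.symm)
    omega
  have hG : IsP G f (r - 1) := ⟨fun i j hi hj => hf.1 i j (by omega) (by omega),
    fun i hi => hback (hf.2 i (by omega)) (hne i (by omega)) (hne (i + 1) (by omega))⟩
  have hmem : ∀ i, 0 < i → i < r → f i ∈ D := by
    intro i hi0 hi
    have h1 := hfY i hi.le
    have h2 : f i ≠ a := fun h => by
      have := hf.1 i 0 hi.le (Nat.zero_le _) (h.trans hf0.symm)
      omega
    simpa [h2, hne i hi] using h1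
  have hlast : ∃ κ ∈ K.erase a, G.Adj (f (r - 1)) κ := by
    have h := hf.2 (r - 1) (by omega)
    rw [show r - 1 + 1 = r by omega, hfr] at h
    obtain ⟨-, (h | ⟨h, -⟩) | (h | ⟨-, -, z, hz, h⟩)⟩ := h
    · exact ⟨κ0, hκ0, h⟩
    · exact absurd h (hne (r - 1) (by omega))
    · exact ⟨κ0, hκ0, h.symm⟩
    · exact ⟨z, hz, h⟩
  obtain ⟨κ, hκ, hκadj⟩ := hlast
  rw [Finset.mem_erase] at hκ
  refine ⟨r, hdr, cat f (r - 1) (fun _ => κ), ?_, ?_, ?_, ?_, ?_⟩
  · have := hG.cat (isP_const κ) hκadj (fun i hi j _ he => by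
      rcases Nat.eq_zero_or_pos i with h | h
      · subst h
        exact hκ.1 (he.symm.trans hf0)
      · exact hDK _ (hmem i h (by omega)) (he ▸ hκ.2))
    rwa [show r - 1 + 1 + 0 = r by omega] at this
  · rw [cat_zero, hf0]
    exact haK
  · rw [cat_gt (by omega)]
    exact hκ.2
  · intro i hi
    refine cat_mem (P := fun x => x ∈ X) (s := 0) (fun j hj => ?_) (fun _ _ => hK hκ.2) i (by omega)
    rcases Nat.eq_zero_or_pos j with h | h
    · rw [h, hf0]
      exact hK haK
    · exact hDX (hmem j h (by omega))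
  · intro i hi0 hi
    rw [cat_le (by omega)]
    exact hDK _ (hmem i hi0 hi)

/-- Many window edges can receive distinct apexes from an independent set. -/
lemma flex {c : ℕ → V} {w k : ℕ} {X I : Finset V} (halp : alpha G X ≤ k)
    (hinj : ∀ i j, i < w → j < w → c i = c j → i = j) (hcX : ∀ i, i < w → c i ∈ X)
    (hI : I ⊆ X) (hIi : Indep G I) (hIc : I.card + 1 = k) (hdis : ∀ i, i < w → c i ∉ I)
    (hwin : ∀ i j, i + 2 ≤ j → j < w → ¬ G.Adj (c i) (c j))
    (hspan : ∀ u ∈ I, ∀ i j, i + 3 ≤ j → j < w → G.Adj u (c i) → ¬ G.Adj u (c j)) :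
    ∃ M : Finset ℕ, ∃ u : ℕ → V, w ≤ M.card + (k + 1) ∧
      (∀ p ∈ M, p + 1 < w ∧ u p ∈ I ∧ G.Adj (u p) (c p) ∧ G.Adj (u p) (c (p + 1))) ∧
      ∀ p ∈ M, ∀ p' ∈ M, u p = u p' → p = p' := by
  let N : ℕ → Finset V := fun p => I.filter fun x => G.Adj x (c p) ∧ G.Adj x (c (p + 1))
  let E : Finset ℕ := (Finset.range (w - 1)).filter fun p => (N p).Nonempty
  have hEmem : ∀ {p x}, p + 1 < w → x ∈ I → G.Adj x (c p) → G.Adj x (c (p + 1)) → p ∈ E := by
    intro p x hp hx h1 h2
    exact Finset.mem_filter.2 ⟨Finset.mem_range.2 (by omega),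
      ⟨x, Finset.mem_filter.2 ⟨hx, h1, h2⟩⟩⟩
  -- parity inequality
  have key : ∀ S, S ⊆ E → w ≤ (E \ S).card + (S.biUnion N).card + (k + 1) := by
    intro S hS
    let D1 := (E \ S).image fun p => if p % 2 = 1 then p else p + 1
    let X' := Finset.range w \ D1
    let I' := I \ S.biUnion N
    let P : ℕ → Finset ℕ := fun b => X'.filter fun i => i % 2 = b
    let NP : ℕ → Finset V := fun b => I'.filter fun x => ∃ i ∈ P b, G.Adj x (c i)
    have hP : ∀ b, ∀ i ∈ P b, i < w ∧ i ∉ D1 ∧ i % 2 = b := fun b i hi => by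
      obtain ⟨h1, h2⟩ := Finset.mem_filter.1 hi
      obtain ⟨h3, h4⟩ := Finset.mem_sdiff.1 h1
      exact ⟨Finset.mem_range.1 h3, h4, h2⟩
    have hbound : ∀ b, (P b).card + I'.card ≤ (NP b).card + k := by
      intro b
      have hcard : ((P b).image c).card = (P b).card := Finset.card_image_of_injOn
        fun i hi j hj he => hinj i j (hP b i hi).1 (hP b j hj).1 he
      have hd : Disjoint ((P b).image c) (I' \ NP b) := by
        rw [Finset.disjoint_left]
        rintro x hx hx'
        obtain ⟨i, hi, rfl⟩ := Finset.mem_image.1 hx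
        exact hdis i (hP b i hi).1 (Finset.mem_sdiff.1 (Finset.mem_sdiff.1 hx').1).1
      have hindep : Indep G ((P b).image c ∪ (I' \ NP b)) := by
        refine Indep.union ?_ (hIi.subset (Finset.sdiff_subset.trans Finset.sdiff_subset)) ?_
        · intro x hx y hy
          obtain ⟨i, hi, rfl⟩ := Finset.mem_image.1 hx
          obtain ⟨j, hj, rfl⟩ := Finset.mem_image.1 hy
          obtain ⟨hi1, -, hi2⟩ := hP b i hi
          obtain ⟨hj1, -, hj2⟩ := hP b j hj
          intro hxy
          rcases lt_trichotomy i j with h | h | h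
          · exact hwin i j (by omega) hj1 hxy
          · subst h
            exact G.irrefl hxy
          · exact hwin j i (by omega) hi1 hxy.symm
        · intro x hx y hy hxy
          obtain ⟨i, hi, rfl⟩ := Finset.mem_image.1 hx
          rw [Finset.mem_sdiff] at hy
          exact hy.2 (Finset.mem_filter.2 ⟨hy.1, i, hi, hxy.symm⟩)
      have h := (le_alpha (Y := X) (Finset.union_subset
        (fun x hx => by
          obtain ⟨i, hi, rfl⟩ := Finset.mem_image.1 hx
          exact hcX i (hP b i hi).1)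
        ((Finset.sdiff_subset.trans Finset.sdiff_subset).trans hI)) hindep).trans halp
      rw [Finset.card_union_of_disjoint hd, hcard] at h
      have : (I' \ NP b).card + (NP b).card = I'.card :=
        Finset.card_sdiff_add_card_eq_card (Finset.filter_subset _ _)
      omega
    have hNd : Disjoint (NP 0) (NP 1) := by
      rw [Finset.disjoint_left]
      intro x hx0 hx1
      obtain ⟨hxI, i, hi, hxi⟩ := Finset.mem_filter.1 hx0
      obtain ⟨-, j, hj, hxj⟩ := Finset.mem_filter.1 hx1
      rw [Finset.mem_sdiff] at hxI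
      obtain ⟨hi1, hi2, hi3⟩ := hP 0 i hi
      obtain ⟨hj1, hj2, hj3⟩ := hP 1 j hj
      have hij : i + 1 = j ∨ j + 1 = i := by
        by_contra hcon
        by_cases h : i + 3 ≤ j
        · exact hspan x hxI.1 i j h hj1 hxi hxj
        · exact hspan x hxI.1 j i (by omega) hi1 hxj hxi
      apply hj2
      rcases hij with h | h
      · subst h
        have hE := hEmem hj1 hxI.1 hxi hxj
        refine Finset.mem_image.2 ⟨i, Finset.mem_sdiff.2 ⟨hE, fun hS' => ?_⟩,
          if_neg (by omega)⟩
        exact hxI.2 (Finset.mem_biUnion.2 ⟨i, hS', Finset.mem_filter.2 ⟨hxI.1, hxi, hxj⟩⟩)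
      · subst h
        have hE := hEmem hi1 hxI.1 hxj hxi
        refine Finset.mem_image.2 ⟨j, Finset.mem_sdiff.2 ⟨hE, fun hS' => ?_⟩,
          if_pos hj3⟩
        exact hxI.2 (Finset.mem_biUnion.2 ⟨j, hS', Finset.mem_filter.2 ⟨hxI.1, hxj, hxi⟩⟩)
    have h1 : X'.card ≤ (P 0).card + (P 1).card := by
      refine (Finset.card_le_card (?_ : X' ⊆ P 0 ∪ P 1)).trans (Finset.card_union_le _ _)
      intro i hi
      rcases Nat.mod_two_eq_zero_or_one i with h | h
      · exact Finset.mem_union_left _ (Finset.mem_filter.2 ⟨hi, h⟩)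
      · exact Finset.mem_union_right _ (Finset.mem_filter.2 ⟨hi, h⟩)
    have h2 : (NP 0).card + (NP 1).card ≤ I'.card := by
      rw [← Finset.card_union_of_disjoint hNd]
      exact Finset.card_le_card
        (Finset.union_subset (Finset.filter_subset _ _) (Finset.filter_subset _ _))
    have h3 : (Finset.range w).card - D1.card ≤ X'.card := Finset.le_card_sdiff _ _
    have h4 : D1.card ≤ (E \ S).card := Finset.card_image_le
    have h5 : I.card - (S.biUnion N).card ≤ I'.card := Finset.le_card_sdiff _ _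
    have h6 := hbound 0
    have h7 := hbound 1
    rw [Finset.card_range] at h3
    omega
  have hEc : w ≤ E.card + (k + 1) := by simpa using key ∅ (Finset.empty_subset _)
  obtain ⟨d, hd⟩ : ∃ d, E.card = (w - (k + 1)) + d := ⟨E.card - (w - (k + 1)), by omega⟩
  let t : E → Finset (V ⊕ Fin d) := fun e => (N e).disjSum Finset.univ
  obtain ⟨φ, hφi, hφ⟩ := (Finset.all_card_le_biUnion_card_iff_existsInjective' t).1 (by
    intro s
    rcases s.eq_empty_or_nonempty with rfl | ⟨e0, he0⟩
    · simp
    let S := s.map (Function.Embedding.subtype _)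
    have hSE : S ⊆ E := fun p hp => by
      obtain ⟨e, -, rfl⟩ := Finset.mem_map.1 hp
      exact e.2
    have hsub : (S.biUnion N).disjSum (Finset.univ : Finset (Fin d)) ⊆ s.biUnion t := by
      intro x hx
      rw [Finset.mem_biUnion]
      rcases Finset.mem_disjSum.1 hx with ⟨v, hv, rfl⟩ | ⟨i, hi, rfl⟩
      · obtain ⟨p, hp, hvp⟩ := Finset.mem_biUnion.1 hv
        obtain ⟨e, he, rfl⟩ := Finset.mem_map.1 hp
        exact ⟨e, he, Finset.inl_mem_disjSum.2 hvp⟩
      · exact ⟨e0, he0, Finset.inr_mem_disjSum.2 hi⟩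
    have h1 := Finset.card_le_card hsub
    rw [Finset.card_disjSum, Finset.card_univ, Fintype.card_fin] at h1
    have h2 := key S hSE
    have h3 : S.card = s.card := Finset.card_map _
    have h4 := Finset.card_sdiff_of_subset hSE
    have h5 := Finset.card_le_card hSE
    omega)
  let M : Finset E := Finset.univ.filter fun e => (φ e).isLeft = true
  have hMc : E.card ≤ M.card + d := by
    have h1 : (Finset.univ.filter fun e : E => ¬ (φ e).isLeft = true).card ≤
        (Finset.univ : Finset (Fin d)).card := by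
      refine (Finset.card_le_card_of_injOn φ ?_ hφi.injOn).trans
        (Finset.card_map (Function.Embedding.inr (α := V))).le
      intro e he
      simp only [Finset.coe_filter, Finset.mem_univ, true_and, Set.mem_ofPred_eq] at he
      cases h : φ e with
      | inl x => simp [h] at he
      | inr x => simp
    have h2 := Finset.card_filter_add_card_filter_not (s := (Finset.univ : Finset E))
      (fun e => (φ e).isLeft = true)
    have hEu : (Finset.univ : Finset E).card = E.card := by simp
    have hFd : (Finset.univ : Finset (Fin d)).card = d := by simp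
    change E.card ≤ (Finset.univ.filter fun e : E => (φ e).isLeft = true).card + d
    omega
  let u : ℕ → V := fun p => if h : p ∈ E then Sum.elim id (fun _ => c 0) (φ ⟨p, h⟩) else c 0
  have hu : ∀ e ∈ M, φ e = Sum.inl (u e) := by
    intro e he
    have h := (Finset.mem_filter.1 he).2
    simp only [u, dif_pos e.2]
    cases h' : φ e with
    | inl x => simp
    | inr x => simp [h'] at h
  refine ⟨M.map (Function.Embedding.subtype _), u, by rw [Finset.card_map]; omega, ?_, ?_⟩
  · intro p hp
    obtain ⟨e, he, rfl⟩ := Finset.mem_map.1 hp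
    have h := hφ e
    rw [hu e he] at h
    have hN := Finset.mem_filter.1 (Finset.inl_mem_disjSum.1 h)
    have hE := Finset.mem_range.1 (Finset.mem_filter.1 e.2).1
    simp only [Function.Embedding.coe_subtype]
    exact ⟨by omega, hN⟩
  · intro p hp p' hp' he
    obtain ⟨e, hem, rfl⟩ := Finset.mem_map.1 hp
    obtain ⟨e', hem', rfl⟩ := Finset.mem_map.1 hp'
    simp only [Function.Embedding.coe_subtype] at he ⊢
    rw [hφi (by rw [hu e hem, hu e' hem', he] : φ e = φ e')]

/-- No clique on `m / 2` vertices. -/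
theorem Cx.no_clique {m k : ℕ} {X : Finset V} (hC : Cx G m k X) (hm : 10 ≤ m) (hk : 2 ≤ k)
    (hmk : 10 * k + 1 ≤ 3 * m) {K : Finset V} (hK : K ⊆ X) (hKc : K.card = m / 2)
    (hcl : G.IsClique (K : Set V)) : False := by
  have hex := exists_ear hC hm (by omega) hK hKc
  obtain ⟨r, ⟨hTr, f, hf, hf0, hfr, hfX, hfK⟩, hmin⟩ :
      ∃ r, (m - m / 2 + 1 ≤ r ∧ Ear G X K r) ∧
        ∀ r', m - m / 2 + 1 ≤ r' → r' < r → ¬ Ear G X K r' :=
    ⟨Nat.find hex, Nat.find_spec hex, fun r' h1 h2 h3 => Nat.find_min hex h2 ⟨h1, h3⟩⟩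
  have hrm : m ≤ r := by
    by_contra hlt
    have hne : f r ≠ f 0 := fun h => by
      have := hf.1 r 0 le_rfl (Nat.zero_le _) h
      omega
    obtain ⟨g, hg, hg0, hgt, hgK⟩ :=
      clique_path hcl hfr hf0 hne (t := m - r) (by omega) (by omega)
    refine hC.noc (HasCyc.of_paths hf hg hg0.symm hgt (by omega) ?_ (by omega))
    intro i hi j hj0 hj he
    have hgj := hgK j hj.le
    rw [← he] at hgj
    rcases Nat.eq_zero_or_pos i with h | h
    · subst h
      have := hg.1 j (m - r) hj.le le_rfl (he.symm.trans hgt.symm)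
      omega
    · rcases Nat.lt_or_eq_of_le hi with h' | h'
      · exact hfK i h h' hgj
      · subst h'
        have := hg.1 j 0 hj.le (Nat.zero_le _) (he.symm.trans hg0.symm)
        omega
  have hskip : ∀ {p q}, p < q → q ≤ r → G.Adj (f p) (f q) →
      Ear G X K (p + 1 + (r - q)) := by
    intro p q hpq hq ha
    refine ⟨skipTo f p q, isP_skipTo hf hpq hq ha, ?_, ?_, ?_, ?_⟩
    · rw [skipTo_le (Nat.zero_le _)]
      exact hf0
    · obtain ⟨a, -, e, -, h⟩ := skipTo_mem (f := f) hpq hq (le_refl (p + 1 + (r - q)))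
      rw [e, h.2 rfl]
      exact hfr
    · intro i hi
      obtain ⟨a, ha', e, -, -⟩ := skipTo_mem (f := f) hpq hq hi
      rw [e]
      exact hfX a ha'
    · intro i hi0 hi
      obtain ⟨a, ha', e, h0, h1⟩ := skipTo_mem (f := f) hpq hq hi.le
      rw [e]
      refine hfK a (Nat.pos_of_ne_zero fun h => by have := h0.1 h; omega) ?_
      refine lt_of_le_of_ne ha' fun h => ?_
      have := h1.1 h
      omega
  have hrT : r ≤ m - m / 2 + 2 * k - 1 := by
    by_contra hgt
    obtain ⟨i, j, -, hij, hj, hadj⟩ := chord hf (p := 0) (k := k) (X := X) (by omega)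
      (fun i _ hi => hfX i (by omega)) hC.alp
    exact hmin _ (by omega) (by omega) (hskip (by omega : i < j) (by omega) hadj)
  -- an independent set off the ear and the clique
  let J : Finset V := (Finset.Ioo 0 r).image f
  have hrest : (X \ (J ∪ K)).card + (r - 1) + m / 2 ≥ X.card := by
    have h1 := Finset.le_card_sdiff (J ∪ K) X
    have h2 := Finset.card_union_le J K
    have h3 : J.card ≤ r - 1 := Finset.card_image_le.trans (by simp)
    omega
  have halp : k - 1 ≤ alpha G (X \ (J ∪ K)) := by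
    by_contra hlt
    have h1 := hC.ih (X \ (J ∪ K)) (by omega)
    have h2 := Nat.mul_le_mul_left (m - 1) (by omega : alpha G (X \ (J ∪ K)) + 2 ≤ k)
    rw [Nat.mul_add] at h2
    have h3 := hC.big
    omega
  obtain ⟨I, hI, hIi, hIc⟩ := exists_indep halp
  have hIX : I ⊆ X := hI.trans Finset.sdiff_subset
  have hIJ : ∀ x ∈ I, x ∉ K ∧ ∀ i, i ≤ r → f i ≠ x := by
    intro x hx
    have h := (Finset.mem_sdiff.1 (hI hx)).2
    rw [Finset.mem_union] at h
    push Not at h
    refine ⟨h.2, fun i hi he => ?_⟩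
    rcases Nat.eq_zero_or_pos i with h' | h'
    · exact h.2 (he ▸ h' ▸ hf0)
    · rcases Nat.lt_or_eq_of_le hi with h'' | h''
      · exact h.1 (Finset.mem_image.2 ⟨i, Finset.mem_Ioo.2 ⟨h', h''⟩, he⟩)
      · exact h.2 (he ▸ h'' ▸ hfr)
  -- the window
  obtain ⟨w, hw1, hw2, hw3⟩ : ∃ w, w ≤ m - 2 * k + 1 ∧ w ≤ m / 2 + 1 ∧
      (w = m - 2 * k + 1 ∨ w = m / 2 + 1) :=
    ⟨min (m - 2 * k + 1) (m / 2 + 1), min_le_left _ _, min_le_right _ _, min_choice _ _⟩
  obtain ⟨M, u, hM, hMu, hMinj⟩ := flex (G := G) (c := f) (w := w) hC.alp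
    (fun i j hi hj => hf.1 i j (by omega) (by omega)) (fun i hi => hfX i (by omega)) hIX hIi
    (by omega) (fun i hi h => (hIJ _ h).2 i (by omega) rfl)
    (fun i j hij hj hadj =>
      hmin _ (by omega) (by omega) (hskip (by omega : i < j) (by omega) hadj))
    (fun x hx i j hij hj h1 h2 => by
      have hP := isP_viaTo hf (by omega : i < j) (by omega) h1 h2 (hIJ x hx).2
      refine hmin (i + 2 + (r - j)) (by omega) (by omega)
        ⟨viaTo f i j x, hP, ?_, ?_, ?_, ?_⟩
      · rw [viaTo_le (Nat.zero_le _)]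
        exact hf0
      · rcases viaTo_mem (f := f) (u := x) (by omega : i < j) (by omega : j ≤ r)
          (le_refl (i + 2 + (r - j))) with ⟨-, h, -⟩ | ⟨a, -, e, -, h⟩
        · omega
        · rw [e, h.2 rfl]
          exact hfr
      · intro l hl
        rcases viaTo_mem (f := f) (u := x) (by omega : i < j) (by omega : j ≤ r) hl with
          ⟨-, -, e⟩ | ⟨a, ha, e, -, -⟩ <;> rw [e]
        · exact hIX hx
        · exact hfX a ha
      · intro l hl0 hl
        rcases viaTo_mem (f := f) (u := x) (by omega : i < j) (by omega : j ≤ r) hl.le with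
          ⟨-, -, e⟩ | ⟨a, ha, e, h0, hr'⟩ <;> rw [e]
        · exact (hIJ x hx).1
        · refine hfK a (Nat.pos_of_ne_zero fun h => by have := h0.1 h; omega) ?_
          refine lt_of_le_of_ne ha fun h => ?_
          have := hr'.1 h
          omega)
  -- a chord beyond the window, repaired by apexes
  obtain ⟨i, j, hi, hij, hj, hadj⟩ := chord hf (p := w - 1) (k := k) (X := X) (by omega)
    (fun l _ hl => hfX l (by omega)) hC.alp
  have hS := hskip (by omega : i < j) (by omega) hadj
  by_cases hTle : m - m / 2 + 1 ≤ i + 1 + (r - j)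
  · exact hmin _ hTle (by omega) hS
  obtain ⟨M', hM'M, hM'c⟩ := Finset.exists_subset_card_eq
    (s := M) (n := m - m / 2 + 1 - (i + 1 + (r - j))) (by omega)
  have hP := isP_skipTo hf (by omega : i < j) (by omega) hadj
  have hmem' : ∀ l, l ≤ i + 1 + (r - j) → ∃ a, a ≤ r ∧ skipTo f i j l = f a := fun l hl => by
    obtain ⟨a, ha, e, -, -⟩ := skipTo_mem (f := f) (by omega : i < j) (by omega : j ≤ r) hl
    exact ⟨a, ha, e⟩
  obtain ⟨f', h1, h2, h3, h4⟩ := insert_many M' u _ _ hP
    (fun p hp => by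
      obtain ⟨hpw, -, ha, hb⟩ := hMu p (hM'M hp)
      rw [skipTo_le (by omega), skipTo_le (by omega)]
      exact ⟨by omega, ha, hb⟩)
    (fun a ha b hb => hMinj a (hM'M ha) b (hM'M hb))
    (fun p hp l hl he => by
      obtain ⟨a, ha, e⟩ := hmem' l hl
      exact (hIJ _ (hMu p (hM'M hp)).2.1).2 a ha (e.symm.trans he))
  have hlen : i + 1 + (r - j) + M'.card = m - m / 2 + 1 := by omega
  rw [hlen] at h1 h3 h4
  refine hmin (m - m / 2 + 1) le_rfl (by omega) ⟨f', h1, ?_, ?_, ?_, ?_⟩
  · rw [h2, skipTo_le (Nat.zero_le _)]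
    exact hf0
  · obtain ⟨a, -, e, -, h⟩ := skipTo_mem (f := f) (by omega : i < j) (by omega : j ≤ r)
      (le_refl (i + 1 + (r - j)))
    rw [h3, e, h.2 rfl]
    exact hfr
  · intro l hl
    rcases Nat.eq_zero_or_pos l with h | h
    · rw [h, h2, skipTo_le (Nat.zero_le _)]
      exact hfX 0 (Nat.zero_le _)
    rcases Nat.lt_or_eq_of_le hl with h' | h'
    · rcases h4 l h h' with ⟨p, hp, e⟩ | ⟨a, -, ha, e⟩ <;> rw [e]
      · exact hIX (hMu p (hM'M hp)).2.1
      · obtain ⟨b, hb, e'⟩ := hmem' a ha.le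
        rw [e']
        exact hfX b hb
    · obtain ⟨b, hb, e'⟩ := hmem' (i + 1 + (r - j)) le_rfl
      rw [h', h3, e']
      exact hfX b hb
  · intro l hl0 hl
    rcases h4 l hl0 hl with ⟨p, hp, e⟩ | ⟨a, ha0, ha, e⟩ <;> rw [e]
    · exact (hIJ _ (hMu p (hM'M hp)).2.1).1
    · obtain ⟨b, hb, e', h0, hr'⟩ :=
        skipTo_mem (f := f) (by omega : i < j) (by omega : j ≤ r) ha.le
      rw [e']
      refine hfK b (Nat.pos_of_ne_zero fun h => by have := h0.1 h; omega) ?_
      refine lt_of_le_of_ne hb fun h => ?_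
      have := hr'.1 h
      omega

end Vale.Agent.P048
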