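import Vale.Agent.P048.Clique
import Vale.Agent.P048.AlphaTwo

/-!
P048: a minimal counterexample has no clique on more than `k` and at most `m` vertices.
A cycle through the clique is lengthened one vertex at a time: two predecessors of clique
vertices have a common neighbour in an independent `k`-set outside the cycle.
-/

open scoped Classical

namespace Vale.Agent.P048

variable {V : Type*} {G : SimpleGraph V}

/-- A cycle with more than `k` clique vertices on it extends by one vertex. -/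
lemma Cx.cyc_up {m k L : ℕ} {X K : Finset V} (hC : Cx G m k X) (hk : 1 ≤ k)
    (hcl : G.IsClique (K : Set V)) (hkK : k < K.card) (hL : 3 ≤ L) (hLm : L + 1 ≤ m)
    {f : ℕ → V} (hf : IsP G f (L - 1)) (hfc : G.Adj (f (L - 1)) (f 0))
    (hfX : ∀ i, i ≤ L - 1 → f i ∈ X) (hKf : K ⊆ img f (L - 1)) :
    ∃ g, IsP G g L ∧ G.Adj (g L) (g 0) ∧ (∀ i, i ≤ L → g i ∈ X) ∧ K ⊆ img g L := by
  set Y := X \ img f (L - 1) with hY
  have hYc : (m - 1) * (k - 1) < Y.card := by
    have h1 := Finset.le_card_sdiff (img f (L - 1)) X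
    have h2 := card_img_le f (L - 1)
    have h3 := hC.big
    have h4 : (m - 1) * (k - 1) + (m - 1) = (m - 1) * k := by
      rw [← Nat.mul_succ]
      congr 1
      omega
    rw [← hY] at h1
    omega
  have hYa : k ≤ alpha G Y := by
    by_contra hlt
    have h1 := hC.ih Y (by omega)
    have h2 := Nat.mul_le_mul_left (m - 1) (by omega : alpha G Y ≤ k - 1)
    omega
  obtain ⟨I, hIY, hIi, hIc⟩ := exists_indep hYa
  set P := (Finset.range L).filter fun p => f ((p + 1) % L) ∈ K with hP
  have hKP : K ⊆ P.image fun p => f ((p + 1) % L) := by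
    intro x hx
    obtain ⟨i, hi, rfl⟩ := mem_img.1 (hKf hx)
    rw [Finset.mem_image]
    rcases Nat.eq_zero_or_pos i with h | h
    · subst h
      have he : (L - 1 + 1) % L = 0 := by rw [Nat.sub_add_cancel (by omega), Nat.mod_self]
      exact ⟨L - 1, Finset.mem_filter.2 ⟨Finset.mem_range.2 (by omega), by rwa [he]⟩, by rw [he]⟩
    · have he : (i - 1 + 1) % L = i := by
        rw [Nat.sub_add_cancel h, Nat.mod_eq_of_lt (by omega)]
      exact ⟨i - 1, Finset.mem_filter.2 ⟨Finset.mem_range.2 (by omega), by rwa [he]⟩, by rw [he]⟩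
  have hPc : k < P.card :=
    hkK.trans_le ((Finset.card_le_card hKP).trans Finset.card_image_le)
  have hPX : ∀ p ∈ P, f p ∈ X ∧ f p ∉ I := by
    intro p hp
    have hpL := Finset.mem_range.1 (Finset.mem_filter.1 hp).1
    refine ⟨hfX p (by omega), fun h => ?_⟩
    exact (Finset.mem_sdiff.1 (hIY h)).2 (mem_img.2 ⟨p, by omega, rfl⟩)
  have hnb : ∀ p ∈ P, ∃ u ∈ I, G.Adj u (f p) := by
    intro p hp
    by_contra hcon
    push Not at hcon
    have hi : Indep G (insert (f p) I) := by
      intro x hx y hy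
      rw [Finset.mem_insert] at hx hy
      rcases hx with rfl | hx <;> rcases hy with rfl | hy
      · exact G.irrefl
      · exact fun h => hcon y hy h.symm
      · exact hcon x hx
      · exact hIi x hx y hy
    have h := le_alpha (G := G) (Y := X)
      (Finset.insert_subset (hPX p hp).1 (hIY.trans Finset.sdiff_subset)) hi
    rw [Finset.card_insert_of_notMem (hPX p hp).2] at h
    have := hC.alp
    omega
  obtain ⟨p0, hp0⟩ := Finset.card_pos.1 (by omega : 0 < P.card)
  obtain ⟨u0, hu0⟩ := Finset.card_pos.1 (by omega : 0 < I.card)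
  let φ : ℕ → V := fun p => if h : p ∈ P then (hnb p h).choose else u0
  have hφ : ∀ p ∈ P, φ p ∈ I ∧ G.Adj (φ p) (f p) := by
    intro p hp
    simp only [φ, dif_pos hp]
    exact (hnb p hp).choose_spec
  obtain ⟨p, hp, q, hq, hpq, he⟩ := Finset.exists_ne_map_eq_of_card_lt_of_maps_to
    (by omega : I.card < P.card) (fun x hx => (hφ x hx).1)
  -- rotate so that the later predecessor is last
  obtain ⟨a, b, hab, hb, ha', hb'⟩ : ∃ a b, a < b ∧ b < L ∧
      (f ((a + 1) % L) ∈ K ∧ G.Adj (φ p) (f a)) ∧ (f ((b + 1) % L) ∈ K ∧ G.Adj (φ p) (f b)) := by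
    obtain ⟨hp1, hp2⟩ := Finset.mem_filter.1 hp
    obtain ⟨hq1, hq2⟩ := Finset.mem_filter.1 hq
    rw [Finset.mem_range] at hp1 hq1
    rcases lt_or_gt_of_ne hpq with h | h
    · exact ⟨p, q, h, hq1, ⟨hp2, (hφ p hp).2⟩, hq2, he ▸ (hφ q hq).2⟩
    · exact ⟨q, p, h, hp1, ⟨hq2, he ▸ (hφ q hq).2⟩, hp2, (hφ p hp).2⟩
  set u := φ p with hu
  have huI : u ∈ I := (hφ p hp).1
  set s := (b + 1) % L with hs
  have hsL : s < L := Nat.mod_lt _ (by omega)
  set c : ℕ → V := fun i => f ((i + s) % L) with hc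
  obtain ⟨hcP, hcA⟩ := cyc_rot (by omega) hsL hf hfc
  replace hcP : IsP G c (L - 1) := hcP
  set a' := a + L - 1 - b with ha'def
  have hmod : ∀ i, i < L → i + b + 1 ≥ L → i + b + 1 < 2 * L → (i + s) % L = i + b + 1 - L := by
    intro i hi h1 h2
    rw [hs, Nat.add_mod_mod, show i + (b + 1) = i + b + 1 - L + L by omega, Nat.add_mod_right,
      Nat.mod_eq_of_lt (by omega)]
  have hca : c a' = f a := by
    show f _ = f a
    rw [hmod a' (by omega) (by omega) (by omega)]
    congr 1
    omega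
  have hca1 : c (a' + 1) = f ((a + 1) % L) := by
    show f _ = f _
    rw [hmod (a' + 1) (by omega) (by omega) (by omega), Nat.mod_eq_of_lt (by omega : a + 1 < L)]
    congr 1
    omega
  have hcb : c (L - 1) = f b := by
    show f _ = f b
    rw [hmod (L - 1) (by omega) (by omega) (by omega)]
    congr 1
    omega
  have hc0 : c 0 = f s := by
    show f _ = f s
    rw [Nat.zero_add, Nat.mod_eq_of_lt hsL]
  have hcf : ∀ i, ∃ j, j ≤ L - 1 ∧ c i = f j :=
    fun i => ⟨_, Nat.le_sub_one_of_lt (Nat.mod_lt _ (by omega)), rfl⟩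
  have hcu : ∀ i, c i ≠ u := by
    intro i h
    obtain ⟨j, hj, hj'⟩ := hcf i
    exact (Finset.mem_sdiff.1 (hIY huI)).2 (mem_img.2 ⟨j, hj, by rw [← hj', h]⟩)
  set d := L - 1 - (a' + 1) with hd
  have hrev : IsP G (fun i => c (L - 1 - i)) d :=
    (hcP.rev).mono (by omega)
  have htail : IsP G (cat (fun _ => u) 0 fun i => c (L - 1 - i)) (0 + 1 + d) :=
    (isP_const u).cat hrev (by
      show G.Adj u (c (L - 1 - 0))
      rw [Nat.sub_zero, hcb]
      exact hb'.2) (fun i _ j _ h => hcu _ h.symm)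
  have hg : IsP G (cat c a' (cat (fun _ => u) 0 fun i => c (L - 1 - i))) (a' + 1 + (0 + 1 + d)) :=
    (hcP.mono (by omega)).cat htail (by rw [cat_zero, hca]; exact ha'.2.symm) (by
      intro i hi j hj he'
      rcases cat_cases (f := fun _ => u) (g := fun i => c (L - 1 - i)) (r := 0) hj with
        ⟨x, -, hx, -⟩ | ⟨x, hx', hx, -⟩ <;> rw [hx] at he'
      · exact hcu i he'
      · have := hcP.1 i (L - 1 - x) (by omega) (by omega) he'
        omega)
  have hlen : a' + 1 + (0 + 1 + d) = L := by omega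
  rw [hlen] at hg
  refine ⟨_, hg, ?_, ?_, ?_⟩
  · have hlast : cat c a' (cat (fun _ => u) 0 fun i => c (L - 1 - i)) L = c (a' + 1) := by
      conv_lhs => arg 4; rw [← hlen]
      rw [cat_last, cat_last]
      exact congrArg c (by omega)
    rw [cat_zero, hc0, hlast, hca1]
    refine hcl ha'.1 hb'.1 fun h => ?_
    have h1 : a' + 1 = 0 := hcP.1 _ _ (by omega) (by omega) (by rw [hca1, hc0]; exact h)
    omega
  · intro i hi
    exact cat_mem (P := fun x => x ∈ X) (s := 0 + 1 + d) (fun j _ => by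
        obtain ⟨l, hl, h⟩ := hcf j
        rw [h]; exact hfX l hl)
      (cat_mem (P := fun x => x ∈ X) (fun _ _ => (hIY.trans Finset.sdiff_subset) huI) (fun j _ => by
        obtain ⟨l, hl, h⟩ := hcf (L - 1 - j)
        show c _ ∈ X
        rw [h]; exact hfX l hl)) i (by omega)
  · intro x hx
    obtain ⟨i, hi, rfl⟩ := mem_img.1 (hKf hx)
    -- position of `f i` on the rotated cycle
    obtain ⟨j, hj, hji⟩ : ∃ j, j ≤ L - 1 ∧ c j = f i := by
      refine ⟨(i + (L - s)) % L, Nat.le_sub_one_of_lt (Nat.mod_lt _ (by omega)), ?_⟩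
      show f _ = f i
      rw [Nat.mod_add_mod, show i + (L - s) + s = i + L by omega, Nat.add_mod_right,
        Nat.mod_eq_of_lt (by omega)]
    rw [← hji, mem_img]
    by_cases hja : j ≤ a'
    · exact ⟨j, by omega, cat_le hja⟩
    · refine ⟨a' + 1 + (0 + 1 + (L - 1 - j)), by omega, ?_⟩
      rw [cat_last, cat_last, show L - 1 - (L - 1 - j) = j by omega]

/-- No clique with more than `k` and at most `m` vertices. -/
theorem Cx.no_clique_up {m k : ℕ} {X K : Finset V} (hC : Cx G m k X) (hk : 1 ≤ k) (hK : K ⊆ X)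
    (hcl : G.IsClique (K : Set V)) (hkK : k < K.card) (hK3 : 3 ≤ K.card) (hKm : K.card ≤ m) :
    False := by
  have key : ∀ j, K.card + j ≤ m → ∃ g, IsP G g (K.card + j - 1) ∧
      G.Adj (g (K.card + j - 1)) (g 0) ∧ (∀ i, i ≤ K.card + j - 1 → g i ∈ X) ∧
      K ⊆ img g (K.card + j - 1) := by
    intro j
    induction j with
    | zero =>
      intro _
      obtain ⟨v, hv, w, hw, hvw⟩ := Finset.one_lt_card.1 (by omega : 1 < K.card)
      obtain ⟨g, hg, hg0, hgt, hgK⟩ :=
        clique_path hcl hv hw hvw (t := K.card - 1) (by omega) (by omega)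
      refine ⟨g, hg, ?_, fun i hi => hK (hgK i hi), ?_⟩
      · rw [Nat.add_zero, hg0, hgt]
        exact (hcl hv hw hvw).symm
      · have hsub : img g (K.card - 1) ⊆ K := fun x hx => by
          obtain ⟨i, hi, rfl⟩ := mem_img.1 hx
          exact hgK i hi
        rw [Nat.add_zero, Finset.eq_of_subset_of_card_le hsub (by rw [hg.card_img]; omega)]
    | succ j ih =>
      intro hj
      obtain ⟨f, hf, hfc, hfX, hKf⟩ := ih (by omega)
      obtain ⟨g, hg⟩ :=
        hC.cyc_up hk hcl hkK (by omega) (by omega) hf hfc hfX hKf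
      exact ⟨g, by simpa [show K.card + (j + 1) - 1 = K.card + j by omega] using hg⟩
  obtain ⟨g, hg, hga, -, -⟩ := key (m - K.card) (by omega)
  exact hC.noc ⟨g, K.card + (m - K.card) - 1, by omega, hg, hga⟩

end Vale.Agent.P048
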