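import Vale.Agent.P048.AlphaTwo

/-!
P048: the set `H` (large compared with its independence number, minimum degree `m - 1`) stays
connected after deleting any short path with skippable vertices.
-/

open scoped Classical

namespace Vale.Agent.P048

variable {V : Type*} {G : SimpleGraph V}

/-- The properties of the minimal set `H` used in the main argument. -/
structure Good (G : SimpleGraph V) (m a : ℕ) (H : Finset V) : Prop where
  noc : ¬ HasCyc G m
  alp : alpha G H ≤ a
  big : (m - 1) * (a - 1) < H.card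
  small : ∀ Y, Y ⊆ H → 2 ≤ alpha G Y → alpha G Y < a → Y.card ≤ (m - 1) * (alpha G Y - 1)
  deg : ∀ v ∈ H, m - 1 ≤ (nb G v H).card
  noclq : ∀ K, K ⊆ H → G.IsClique (K : Set V) → K.card < m / 2

/-- Deleting fewer than `m` vertices cannot separate two non-cliques. -/
lemma Good.no_split {m a : ℕ} {H Z A B : Finset V} (hH : Good G m a H)
    (hZ : Z.card ≤ m - 1) (hA : A ⊆ H) (hB : B ⊆ H) (hcov : H ⊆ Z ∪ (A ∪ B))
    (hd : Disjoint A B) (hanti : ∀ x ∈ A, ∀ y ∈ B, ¬ G.Adj x y)
    (hA2 : 2 ≤ alpha G A) (hB2 : 2 ≤ alpha G B) : False := by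
  have hab := (alpha_add hA hB hd hanti).trans hH.alp
  have h1 := hH.small A hA hA2 (by omega)
  have h2 := hH.small B hB hB2 (by omega)
  have h3 := (Finset.card_le_card hcov).trans ((Finset.card_union_le _ _).trans
    (Nat.add_le_add le_rfl (Finset.card_union_le A B)))
  have h4 := Nat.mul_le_mul_left (m - 1)
    (by omega : (alpha G A - 1) + (alpha G B - 1) + 1 ≤ a - 1)
  rw [Nat.mul_add, Nat.mul_add, Nat.mul_one] at h4
  have := hH.big
  omega

/-- A clique part left over after deleting a short path closes up a cycle on `m` vertices. -/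
lemma Good.no_clique_part {m a : ℕ} {H A : Finset V} (hH : Good G m a H) {z : ℕ → V} {N g : ℕ}
    (hm : 4 ≤ m) (hz : IsP G z (N - 1)) (hzH : ∀ i, i < N → z i ∈ H) (hg : 2 * g < N)
    (hNm : N + 1 ≤ m) (hopt : N + 4 ≤ m + g)
    (hgad : ∀ i, i < g → G.Adj (z (2 * i)) (z (2 * i + 2)))
    (hA : A ⊆ H \ img z (N - 1)) (hAc : G.IsClique (A : Set V)) (hne : A.Nonempty)
    (hcl : ∀ x ∈ A, ∀ y ∈ H, G.Adj x y → y ∈ A ∨ y ∈ img z (N - 1)) : False := by
  have hAH : A ⊆ H := hA.trans Finset.sdiff_subset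
  have hAz : ∀ x ∈ A, ∀ i, i < N → z i ≠ x := fun x hx i hi he =>
    (Finset.mem_sdiff.1 (hA hx)).2 (mem_img.2 ⟨i, by omega, he⟩)
  have hAq := hH.noclq A hAH hAc
  let I : V → Finset ℕ := fun v => (Finset.range N).filter fun i => G.Adj v (z i)
  have hI : ∀ v ∈ A, m ≤ (I v).card + A.card := by
    intro v hv
    have hsub : nb G v H ⊆ A.erase v ∪ (I v).image z := by
      intro y hy
      rw [mem_nb] at hy
      rcases hcl v hv y hy.1 hy.2 with h | h
      · exact Finset.mem_union_left _ (Finset.mem_erase.2 ⟨hy.2.ne.symm, h⟩)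
      · obtain ⟨i, hi, rfl⟩ := mem_img.1 h
        exact Finset.mem_union_right _ (Finset.mem_image.2
          ⟨i, Finset.mem_filter.2 ⟨Finset.mem_range.2 (by omega), hy.2⟩, rfl⟩)
    have h1 := (Finset.card_le_card hsub).trans (Finset.card_union_le _ _)
    have h2 : ((I v).image z).card ≤ (I v).card := Finset.card_image_le
    have h3 := hH.deg v (hAH hv)
    rw [Finset.card_erase_of_mem hv] at h1
    have := Finset.card_pos.2 hne
    omega
  have hspan : ∀ v ∈ A, ∃ p p', p ≤ p' ∧ p' < N ∧ G.Adj v (z p) ∧ G.Adj v (z p') ∧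
      m ≤ p' + 1 - p + A.card := by
    intro v hv
    have h := hI v hv
    have hIne : (I v).Nonempty := Finset.card_pos.1 (by omega)
    have hsub : I v ⊆ Finset.Icc ((I v).min' hIne) ((I v).max' hIne) := fun i hi =>
      Finset.mem_Icc.2 ⟨Finset.min'_le _ _ hi, Finset.le_max' _ _ hi⟩
    have hc := Finset.card_le_card hsub
    rw [Nat.card_Icc] at hc
    have h1 := Finset.mem_filter.1 (Finset.min'_mem _ hIne)
    have h2 := Finset.mem_filter.1 (Finset.max'_mem _ hIne)
    exact ⟨_, _, Finset.min'_le_max' _ hIne, Finset.mem_range.1 h2.1, h1.2, h2.2, by omega⟩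
  obtain ⟨v1, hv1⟩ := hne
  by_cases hone : A.card ≤ 1
  · obtain ⟨p, p', hpp, hp', ha, hb, hlen⟩ := hspan v1 hv1
    have h0 : p = 0 := by omega
    have hN : p' = N - 1 := by omega
    subst h0 hN
    have hP := hz.cat (isP_const v1) hb.symm (fun i hi j _ => hAz v1 hv1 i (by omega))
    refine hH.noc ⟨_, _, by omega, hP, ?_⟩
    rw [cat_last, cat_zero]
    exact ha
  obtain ⟨v2, hv2, hv12⟩ := Finset.exists_mem_ne (by omega : 1 < A.card) v1
  obtain ⟨v, hv, v', hv', hne', p, p', hpp', hp', ha, hb, hlen⟩ :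
      ∃ v ∈ A, ∃ v' ∈ A, v ≠ v' ∧ ∃ p p', p ≤ p' ∧ p' < N ∧ G.Adj v (z p') ∧ G.Adj v' (z p) ∧
        m ≤ p' + 1 - p + A.card := by
    obtain ⟨p, p', hpp, hp', ha, hb, hlen⟩ := hspan v1 hv1
    obtain ⟨s, s', hss, hs', ha', hb', hlen'⟩ := hspan v2 hv2
    rcases Nat.le_total p s with h | h
    · exact ⟨v2, hv2, v1, hv1, hv12, p, s', by omega, hs', hb', ha, by omega⟩
    · exact ⟨v1, hv1, v2, hv2, hv12.symm, s, p', by omega, hp', hb, ha', by omega⟩
  -- closing a path `c` from `z p` to `z p'` through `A`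
  have close : ∀ (c : ℕ → V) (l : ℕ), IsP G c l → c 0 = z p → c l = z p' →
      (∀ i, i ≤ l → ∃ b, b < N ∧ c i = z b) → l + 3 ≤ m → m ≤ l + 1 + A.card → False := by
    intro c l hc hc0 hcl' hcm hl1 hl2
    obtain ⟨q, hq, hq0, hqt, hqA⟩ :=
      clique_path hAc hv hv' hne' (t := m - (l + 2)) (by omega) (by omega)
    have hP := hc.cat hq (by rw [hcl', hq0]; exact ha.symm) (fun i hi j hj => by
      obtain ⟨b, hb', e⟩ := hcm i hi
      rw [e]
      exact hAz _ (hqA j hj) b hb')
    refine hH.noc ⟨_, _, by omega, hP, ?_⟩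
    rw [cat_last, cat_zero, hqt, hc0]
    exact hb
  have hseg : IsP G (fun i => z (p + i)) (p' - p) := hz.shift (by omega)
  have hend : z (p + (p' - p)) = z p' := by rw [Nat.add_sub_cancel' hpp']
  by_cases hshort : p' - p + 3 ≤ m
  · exact close _ _ hseg rfl hend (fun i hi => ⟨p + i, by omega, rfl⟩) hshort (by omega)
  let odd : Finset ℕ := (Finset.range g).image fun i => 2 * i + 1
  have hoddc : odd.card = g := by
    rw [Finset.card_image_of_injective _ (fun a b (h : 2 * a + 1 = 2 * b + 1) => by omega),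
      Finset.card_range]
  let O : Finset ℕ := (Finset.Ioo 0 (p' - p)).filter fun o => p + o ∈ odd
  have hOc : p' - p + 1 ≤ O.card + (N - g) + 2 := by
    have hsub : (Finset.range (p' - p + 1)).image (fun o => p + o) ⊆
        O.image (fun o => p + o) ∪ ((Finset.range N \ odd) ∪ {p, p'}) := by
      intro b hb'
      obtain ⟨o, ho, rfl⟩ := Finset.mem_image.1 hb'
      rw [Finset.mem_range] at ho
      simp only [Finset.mem_union, Finset.mem_sdiff, Finset.mem_range, Finset.mem_insert,
        Finset.mem_singleton]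
      by_cases h1 : o = 0
      · exact Or.inr (Or.inr (Or.inl (by omega)))
      by_cases h2 : o = p' - p
      · exact Or.inr (Or.inr (Or.inr (by omega)))
      by_cases h3 : p + o ∈ odd
      · exact Or.inl (Finset.mem_image.2
          ⟨o, Finset.mem_filter.2 ⟨Finset.mem_Ioo.2 (by omega), h3⟩, rfl⟩)
      · exact Or.inr (Or.inl ⟨by omega, h3⟩)
    have h1 := Finset.card_le_card hsub
    rw [Finset.card_image_of_injective _ (add_right_injective p), Finset.card_range] at h1
    have h2 := Finset.card_union_le (O.image fun o => p + o) ((Finset.range N \ odd) ∪ {p, p'})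
    have h3 := Finset.card_union_le (Finset.range N \ odd) {p, p'}
    have h4 : (O.image fun o => p + o).card ≤ O.card := Finset.card_image_le
    have h5 : (Finset.range N \ odd).card = N - g := by
      rw [Finset.card_sdiff_of_subset (fun b hb' => by
        obtain ⟨i, hi, rfl⟩ := Finset.mem_image.1 hb'
        rw [Finset.mem_range] at hi ⊢
        omega), Finset.card_range, hoddc]
    have h6 : ({p, p'} : Finset ℕ).card ≤ 2 := Finset.card_le_two
    omega
  obtain ⟨D, hDO, hDc⟩ := Finset.exists_subset_card_eq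
    (s := O) (n := p' - p + 3 - m) (by omega)
  have hOmem : ∀ o ∈ D, 0 < o ∧ o < p' - p ∧ ∃ i, i < g ∧ p + o = 2 * i + 1 := by
    intro o ho
    obtain ⟨h1, h2⟩ := Finset.mem_filter.1 (hDO ho)
    obtain ⟨i, hi, e⟩ := Finset.mem_image.1 h2
    exact ⟨(Finset.mem_Ioo.1 h1).1, (Finset.mem_Ioo.1 h1).2, i, Finset.mem_range.1 hi, e.symm⟩
  obtain ⟨c, hc, -, hc0, hcl', hcm⟩ := delete_many D _ _ hseg (fun o ho => by
    obtain ⟨h1, h2, i, hi, e⟩ := hOmem o ho
    refine ⟨h1, h2, ?_⟩
    show G.Adj (z (p + (o - 1))) (z (p + (o + 1)))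
    rw [show p + (o - 1) = 2 * i by omega, show p + (o + 1) = 2 * i + 2 by omega]
    exact hgad i hi) (fun o ho h => by
    obtain ⟨-, -, i, -, e⟩ := hOmem o ho
    obtain ⟨-, -, i', -, e'⟩ := hOmem _ h
    omega)
  exact close c _ hc hc0 (hcl'.trans hend) (fun i hi => by
    obtain ⟨b, hb', e⟩ := hcm i hi
    exact ⟨p + b, by omega, e⟩) (by omega) (by omega)

/-- `H` minus the path is connected and non-empty. -/
theorem Good.conn {m a : ℕ} {H : Finset V} (hH : Good G m a H) {z : ℕ → V} {N g : ℕ}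
    (hm : 4 ≤ m) (ha : 3 ≤ a) (hz : IsP G z (N - 1)) (hzH : ∀ i, i < N → z i ∈ H)
    (hg : 2 * g < N) (hNm : N + 1 ≤ m) (hopt : N + 4 ≤ m + g)
    (hgad : ∀ i, i < g → G.Adj (z (2 * i)) (z (2 * i + 2))) :
    ConnOn G (H \ img z (N - 1)) ∧ (H \ img z (N - 1)).Nonempty := by
  have hZc := hz.card_img
  refine ⟨?_, ?_⟩
  · intro B hB hne hcl x hx
    by_contra hxB
    set C := (H \ img z (N - 1)) \ B with hCdef
    have hCne : C.Nonempty := ⟨x, Finset.mem_sdiff.2 ⟨hx, hxB⟩⟩
    have hCsub : C ⊆ H \ img z (N - 1) := Finset.sdiff_subset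
    have hanti : ∀ u ∈ B, ∀ w ∈ C, ¬ G.Adj u w := fun u hu w hw huw =>
      (Finset.mem_sdiff.1 hw).2 (hcl u hu w (hCsub hw) huw)
    by_cases hBc : alpha G B ≤ 1
    · refine hH.no_clique_part hm hz hzH hg hNm hopt hgad hB (clique_of_alpha_le_one hBc) hne ?_
      intro u hu w hw huw
      by_cases hwz : w ∈ img z (N - 1)
      · exact Or.inr hwz
      · exact Or.inl (hcl u hu w (Finset.mem_sdiff.2 ⟨hw, hwz⟩) huw)
    by_cases hCc : alpha G C ≤ 1
    · refine hH.no_clique_part hm hz hzH hg hNm hopt hgad hCsub (clique_of_alpha_le_one hCc)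
        hCne ?_
      intro u hu w hw huw
      by_cases hwz : w ∈ img z (N - 1)
      · exact Or.inr hwz
      refine Or.inl (Finset.mem_sdiff.2 ⟨Finset.mem_sdiff.2 ⟨hw, hwz⟩, fun hwB => ?_⟩)
      exact hanti w hwB u hu huw.symm
    refine hH.no_split (Z := img z (N - 1)) (A := B) (B := C) (by omega)
      (hB.trans Finset.sdiff_subset) (hCsub.trans Finset.sdiff_subset) ?_ Finset.disjoint_sdiff
      hanti (by omega) (by omega)
    intro w hw
    simp only [hCdef, Finset.mem_union, Finset.mem_sdiff, hw, true_and]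
    tauto
  · rw [← Finset.card_pos]
    have h1 := Finset.le_card_sdiff (img z (N - 1)) H
    have h2 := hH.big
    have h3 := Nat.mul_le_mul_left (m - 1) (by omega : 2 ≤ a - 1)
    omega

end Vale.Agent.P048
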