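import Vale.Agent.P048.Basic

/-!
P048: a long path between two prescribed vertices (Erdős–Gallai), in the form needed here:
if every component of `X - w`, for every `w`, meets `{a, b}` and all other degrees are at
least `d`, then there is a path from `a` to `b` with at least `d` edges.
-/

open scoped Classical

namespace Vale.Agent.P048

variable {V : Type*} {G : SimpleGraph V}

theorem exists_long_path : ∀ (n : ℕ) (X : Finset V) (a b : V) (d : ℕ), X.card ≤ n →
    a ∈ X → b ∈ X → a ≠ b → (∃ v ∈ X, v ≠ a ∧ v ≠ b) →
    (∀ v ∈ X, v ≠ a → v ≠ b → d ≤ (nb G v X).card) →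
    (∀ w B, B ⊆ X → w ∉ B → B.Nonempty →
      (∀ x ∈ B, ∀ y ∈ X, G.Adj x y → y ∈ B ∨ y = w) → a ∈ B ∨ b ∈ B) →
    ∃ f r, IsP G f r ∧ d ≤ r ∧ f 0 = a ∧ f r = b ∧ ∀ i, i ≤ r → f i ∈ X := by
  intro n
  induction n with
  | zero =>
    intro X a b d hn ha
    exact absurd (Finset.card_pos.2 ⟨a, ha⟩) (by omega)
  | succ n ih =>
    intro X a b d hn ha hb hab hint hdeg hcl
    -- a neighbour of `a` other than `b`
    obtain ⟨a', ha'X, ha'b, haa'⟩ : ∃ a' ∈ X, a' ≠ b ∧ G.Adj a a' := by
      by_contra hcon
      push Not at hcon
      obtain ⟨v, hv, hva, hvb⟩ := hint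
      rcases hcl b ((X.erase a).erase b)
        ((Finset.erase_subset _ _).trans (Finset.erase_subset _ _))
        (Finset.notMem_erase _ _) ⟨v, by simp [hv, hva, hvb]⟩ (by
          intro x hx y hy hxy
          simp only [Finset.mem_erase] at hx ⊢
          by_cases hyb : y = b
          · exact Or.inr hyb
          · refine Or.inl ⟨hyb, ?_, hy⟩
            rintro rfl
            exact hcon x hx.2.2 hx.1 hxy.symm) with h | h <;> simp at h
    have ha'a : a' ≠ a := fun h => G.irrefl (h ▸ haa')
    have hX' : X.erase a ⊆ X := Finset.erase_subset _ _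
    have hXcard : (X.erase a).card ≤ n := by
      rw [Finset.card_erase_of_mem ha]
      omega
    by_cases hA : ∃ c B, B ⊆ X.erase a ∧ c ∉ B ∧ B.Nonempty ∧
        (∀ x ∈ B, ∀ y ∈ X.erase a, G.Adj x y → y ∈ B ∨ y = c) ∧ a' ∉ B ∧ b ∉ B
    · obtain ⟨c, B, hB, hcB, hBne, hBcl, ha'B, hbB⟩ := hA
      have haB : a ∉ B := fun h => Finset.notMem_erase _ _ (hB h)
      have hBX : B ⊆ X := hB.trans hX'
      have hsplit : ∀ x ∈ B, ∀ y ∈ X, G.Adj x y → y = a ∨ y = c ∨ y ∈ B := by
        intro x hx y hy hxy
        by_cases hya : y = a
        · exact Or.inl hya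
        · rcases hBcl x hx y (Finset.mem_erase.2 ⟨hya, hy⟩) hxy with h | h
          · exact Or.inr (Or.inr h)
          · exact Or.inr (Or.inl h)
      have hc : c ∈ X.erase a := by
        by_contra hc
        have := hcl a B hBX haB hBne (by
          intro x hx y hy hxy
          rcases hsplit x hx y hy hxy with h | h | h
          · exact Or.inr h
          · by_cases hya : y = a
            · exact Or.inr hya
            · exact absurd (Finset.mem_erase.2 ⟨hya, hy⟩) (h ▸ hc)
          · exact Or.inl h)
        tauto
      have hca : c ≠ a := (Finset.mem_erase.1 hc).1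
      have hcX : c ∈ X := hX' hc
      have hYX : insert a (insert c B) ⊆ X :=
        Finset.insert_subset ha (Finset.insert_subset hcX hBX)
      have hYlt : (insert a (insert c B)).card < X.card := by
        refine Finset.card_lt_card ((Finset.ssubset_iff_of_subset hYX).2 ?_)
        by_cases hcb : c = b
        · exact ⟨a', ha'X, by simp [ha'a, ha'B, hcb ▸ ha'b]⟩
        · exact ⟨b, hb, by simp [hbB, hab.symm, Ne.symm hcb]⟩
      obtain ⟨f, r, hf, hdr, hf0, hfr, hfY⟩ := ih (insert a (insert c B)) a c d (by omega)
        (by simp) (by simp) hca.symm (by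
          obtain ⟨v, hv⟩ := hBne
          exact ⟨v, by simp [hv], fun h => haB (h ▸ hv), fun h => hcB (h ▸ hv)⟩) (by
          intro v hv hva hvc
          have hvB : v ∈ B := by simpa [hva, hvc] using hv
          refine (hdeg v (hBX hvB) hva (fun h => hbB (h ▸ hvB))).trans
            (Finset.card_le_card ?_)
          intro y hy
          rw [mem_nb] at hy ⊢
          exact ⟨by simpa using hsplit v hvB y hy.1 hy.2, hy.2⟩) (by
          intro w B' hB' hw hne hcl'
          by_contra hcon
          push Not at hcon
          have hB'B : B' ⊆ B := fun x hx => by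
            have hxa : x ≠ a := fun h => hcon.1 (h ▸ hx)
            have hxc : x ≠ c := fun h => hcon.2 (h ▸ hx)
            simpa [hxa, hxc] using hB' hx
          rcases hcl w B' (hB'B.trans hBX) hw hne (fun x hx y hy hxy =>
              hcl' x hx y (by simpa using hsplit x (hB'B hx) y hy hxy) hxy) with h | h
          · exact hcon.1 h
          · exact hbB (hB'B h))
      by_cases hcb : c = b
      · exact ⟨f, r, hf, hdr, hf0, hcb ▸ hfr, fun i hi => hYX (hfY i hi)⟩
      have hcS : c ∈ X.erase a \ B := Finset.mem_sdiff.2 ⟨hc, hcB⟩
      have hbR : b ∈ comp G (X.erase a \ B) c := by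
        by_contra hbR
        have hRX : comp G (X.erase a \ B) c ⊆ X.erase a :=
          comp_subset.trans Finset.sdiff_subset
        have := hcl a (B ∪ comp G (X.erase a \ B) c) (Finset.union_subset hBX (hRX.trans hX'))
          (by
            rw [Finset.mem_union]
            rintro (h | h)
            · exact haB h
            · exact Finset.notMem_erase _ _ (hRX h))
          (hBne.mono Finset.subset_union_left) (by
          intro x hx y hy hxy
          by_cases hya : y = a
          · exact Or.inr hya
          left
          rw [Finset.mem_union] at hx ⊢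
          by_cases hyB : y ∈ B
          · exact Or.inl hyB
          right
          rcases hx with hx | hx
          · rcases hsplit x hx y hy hxy with h | h | h
            · exact absurd h hya
            · rw [h]
              exact self_mem_comp hcS
            · exact absurd h hyB
          · exact comp_closed hx
              (Finset.mem_sdiff.2 ⟨Finset.mem_erase.2 ⟨hya, hy⟩, hyB⟩) hxy)
        simp only [Finset.mem_union] at this
        rcases this with (h | h) | (h | h)
        · exact haB h
        · exact Finset.notMem_erase _ _ (hRX h)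
        · exact hbB h
        · exact hbR h
      obtain ⟨g, hg, hg0, hgs, hgS⟩ := exists_isP hcS (mem_comp.1 hbR).2
      generalize (GS G (X.erase a \ B)).dist c b = s at hg hgs
      have hs : 0 < s := Nat.pos_of_ne_zero fun h => hcb (by rw [← hg0, ← hgs, h])
      refine ⟨cat f r (fun i => g (1 + i)), r + 1 + (s - 1),
        hf.cat (hg.shift (by omega)) ?_ ?_, by omega, ?_, ?_, ?_⟩
      · rw [hfr, ← hg0]
        exact hg.2 0 hs
      · intro i hi j hj he
        have h1 := hfY i hi
        have h2 := Finset.mem_sdiff.1 (hgS (1 + j))
        rw [he] at h1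
        rcases Finset.mem_insert.1 h1 with h | h
        · exact (Finset.mem_erase.1 h2.1).1 h
        rcases Finset.mem_insert.1 h with h | h
        · have := hg.1 (1 + j) 0 (by omega) (by omega) (h.trans hg0.symm)
          omega
        · exact h2.2 h
      · rw [cat_zero, hf0]
      · rw [cat_last, show 1 + (s - 1) = s by omega, hgs]
      · exact cat_mem (P := fun x => x ∈ X) (fun i hi => hYX (hfY i hi))
          (fun j _ => hX' (Finset.mem_sdiff.1 (hgS (1 + j))).1)
    · push Not at hA
      by_cases hint' : ∃ v ∈ X.erase a, v ≠ a' ∧ v ≠ b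
      · obtain ⟨f, r, hf, hdr, hf0, hfr, hfY⟩ := ih (X.erase a) a' b (d - 1) hXcard
          (Finset.mem_erase.2 ⟨ha'a, ha'X⟩) (Finset.mem_erase.2 ⟨hab.symm, hb⟩) ha'b hint' (by
            intro v hv _ hvb
            rw [Finset.mem_erase] at hv
            have h1 := hdeg v hv.2 hv.1 hvb
            have h2 : nb G v (X.erase a) = (nb G v X).erase a := Finset.filter_erase _ _ _
            have h3 := Finset.pred_card_le_card_erase (a := a) (s := nb G v X)
            rw [h2]
            omega) (by
            intro w B hB hw hne hBcl
            by_cases h : a' ∈ B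
            · exact Or.inl h
            · exact Or.inr (hA w B hB hw hne hBcl h))
        refine ⟨cat (fun _ => a) 0 f, 0 + 1 + r,
          (isP_const a).cat hf (by rw [hf0]; exact haa') ?_, by omega, cat_zero, ?_, ?_⟩
        · intro i _ j hj he
          exact Finset.notMem_erase a X (he.symm ▸ hfY j hj)
        · rw [cat_last, hfr]
        · exact cat_mem (P := fun x => x ∈ X) (fun _ _ => ha) (fun j hj => hX' (hfY j hj))
      · push Not at hint'
        have h3 : ∀ y ∈ X, y = a ∨ y = a' ∨ y = b := fun y hy => by
          by_cases h : y = a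
          · exact Or.inl h
          by_cases h' : y = a'
          · exact Or.inr (Or.inl h')
          exact Or.inr (Or.inr (hint' y (Finset.mem_erase.2 ⟨h, hy⟩) h'))
        have ha'adj : G.Adj a' b := by
          by_contra hcon
          have := hcl a {a'} (Finset.singleton_subset_iff.2 ha'X) (by simpa using ha'a.symm)
            (Finset.singleton_nonempty a') (by
            intro x hx y hy hxy
            rw [Finset.mem_singleton] at hx ⊢
            subst hx
            rcases h3 y hy with h | h | h
            · exact Or.inr h
            · exact Or.inl h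
            · exact absurd (h ▸ hxy) hcon)
          simp [ha'a.symm, ha'b.symm] at this
        have hd : d ≤ 2 := by
          refine (hdeg a' ha'X ha'a ha'b).trans ((Finset.card_le_card (t := {a, b}) ?_).trans
            Finset.card_le_two)
          intro y hy
          rw [mem_nb] at hy
          rcases h3 y hy.1 with h | h | h
          · simp [h]
          · exact absurd (h ▸ hy.2) G.irrefl
          · simp [h]
        refine ⟨cat (fun _ => a) 0 (cat (fun _ => a') 0 (fun _ => b)), 0 + 1 + (0 + 1 + 0),
          (isP_const a).cat ((isP_const a').cat (isP_const b) ha'adj (fun _ _ _ _ => ha'b))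
            (by rw [cat_zero]; exact haa') ?_, by omega, cat_zero, ?_, ?_⟩
        · intro i _ j hj
          exact cat_mem (P := fun x => a ≠ x) (fun _ _ => ha'a.symm) (fun _ _ => hab) j hj
        · rw [cat_last, cat_last]
        · exact cat_mem (P := fun x => x ∈ X) (fun _ _ => ha)
            (cat_mem (P := fun x => x ∈ X) (fun _ _ => ha'X) (fun _ _ => hb))

end Vale.Agent.P048
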