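import Vale.Agent.P048.Basic

/-!
P048: paths between two colour classes in a cycle with a chord, and the cycle of length `m`
they give when the chorded cycle lies in one layer of a breadth-first search tree.
-/

open scoped Classical

namespace Vale.Agent.P048

variable {V : Type*} {G : SimpleGraph V}

/-- `c : ℤ → V` runs round a cycle on `n` vertices. -/
def IsCyc (G : SimpleGraph V) (c : ℤ → V) (n : ℕ) : Prop :=
  (∀ i j, c i = c j ↔ (n : ℤ) ∣ i - j) ∧ ∀ i, G.Adj (c i) (c (i + 1))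

lemma IsCyc.periodic {c : ℤ → V} {n : ℕ} (hc : IsCyc G c n) (i : ℤ) (q : ℤ) :
    c (i + (n : ℤ) * q) = c i :=
  (hc.1 _ _).2 ⟨q, by ring⟩

lemma IsCyc.ne {c : ℤ → V} {n : ℕ} (hc : IsCyc G c n) {i j : ℤ} (h1 : i < j)
    (h2 : j < i + n) : c j ≠ c i := by
  intro h
  have := Int.le_of_dvd (by omega) ((hc.1 _ _).1 h)
  omega

lemma IsCyc.adj_back {c : ℤ → V} {n : ℕ} (hc : IsCyc G c n) (i : ℤ) :
    G.Adj (c i) (c (i - 1)) := by
  simpa using (hc.2 (i - 1)).symm

/-- `c` is a cycle shifted to start at `s`. -/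
lemma IsCyc.shift {c : ℤ → V} {n : ℕ} (hc : IsCyc G c n) (s : ℤ) :
    IsCyc G (fun i => c (s + i)) n := by
  refine ⟨fun i j => ?_, fun i => ?_⟩
  · rw [hc.1]
    ring_nf
  · simp only [← add_assoc]
    exact hc.2 _

/-- A straight arc of a cycle. -/
lemma IsCyc.isP_up {c : ℤ → V} {n : ℕ} (hc : IsCyc G c n) (x : ℤ) {l : ℕ} (hl : l < n) :
    IsP G (fun i : ℕ => c (x + i)) l := by
  refine ⟨fun i j hi hj he => ?_, fun i _ => ?_⟩
  · rcases lt_trichotomy i j with h | h | h
    · exact absurd he.symm (hc.ne (by omega) (by omega))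
    · exact h
    · exact absurd he (hc.ne (by omega) (by omega))
  · have := hc.2 (x + i)
    simpa [add_assoc] using this

/-- An arc run backwards. -/
lemma IsCyc.isP_down {c : ℤ → V} {n : ℕ} (hc : IsCyc G c n) (x : ℤ) {l : ℕ} (hl : l < n) :
    IsP G (fun i : ℕ => c (x - i)) l := by
  refine ⟨fun i j hi hj he => ?_, fun i _ => ?_⟩
  · rcases lt_trichotomy i j with h | h | h
    · exact absurd he (hc.ne (by omega) (by omega))
    · exact h
    · exact absurd he.symm (hc.ne (by omega) (by omega))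
  · have := hc.adj_back (x - i)
    simpa [sub_sub] using this

/-- Two arcs in disjoint windows joined by a chord. -/
lemma IsCyc.isP_join {c : ℤ → V} {n : ℕ} (hc : IsCyc G c n) {f g : ℕ → V} {a b : ℕ}
    (hf : IsP G f a) (hg : IsP G g b) (hadj : G.Adj (f a) (g 0))
    (hw : ∀ i, i ≤ a → ∀ j, j ≤ b → ∃ x y : ℤ, f i = c x ∧ g j = c y ∧ x < y ∧ y < x + n) :
    IsP G (cat f a g) (a + 1 + b) := by
  refine hf.cat hg hadj fun i hi j hj he => ?_
  obtain ⟨x, y, hx, hy, h1, h2⟩ := hw i hi j hj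
  exact hc.ne h1 h2 (by rw [← hx, ← hy, he])

/-- A window of `d` consecutive integers meets every residue class modulo `d`. -/
lemma periodic_window {χ : ℤ → Prop} {d : ℕ} (hd : 0 < d) (hper : ∀ x, χ (x + d) ↔ χ x)
    (x lo : ℤ) : ∃ y q : ℤ, lo ≤ y ∧ y < lo + d ∧ x = y + (d : ℤ) * q ∧
      ∀ t : ℤ, χ (t + (d : ℤ) * q) ↔ χ t := by
  refine ⟨lo + (x - lo) % d, (x - lo) / d, ?_, ?_, ?_, ?_⟩
  · have := Int.emod_nonneg (x - lo) (b := (d : ℤ)) (by omega)
    omega
  · have := Int.emod_lt_of_pos (x - lo) (b := (d : ℤ)) (by omega)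
    omega
  · have := Int.emod_add_mul_ediv (x - lo) (d : ℤ)
    omega
  · intro t
    have key : ∀ q : ℤ, χ (t + (d : ℤ) * q) ↔ χ t := by
      intro q
      induction q using Int.induction_on with
      | zero => simp
      | succ q ih =>
        rw [← ih, ← hper (t + d * q)]
        ring_nf
      | pred q ih =>
        rw [← ih, ← hper (t + d * (-q - 1))]
        ring_nf
    exact key _

/-- **A–B paths in a cycle with a chord.** Either there is a path of length `l` on the
vertices of the chorded cycle from `χ` to its complement, moreover with the parity of `l`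
agreeing with the distance along the cycle when the chorded cycle is bipartite, or the
chorded cycle is bipartite with parts `χ`, `¬χ`. -/
theorem theta_ab {c : ℤ → V} {n r : ℕ} (hc : IsCyc G c n) (hr : 2 ≤ r) (hrn : r + 2 ≤ n)
    (hch : G.Adj (c 0) (c r)) (P : V → Prop) (hex : ∃ x, P (c x)) (hnex : ∃ y, ¬ P (c y))
    {l : ℕ} (hl : 0 < l) (hln : l < n) :
    (∃ p x y, IsP G p l ∧ p 0 = c x ∧ p l = c y ∧ P (c x) ∧ ¬ P (c y) ∧
        (∀ i, i ≤ l → ∃ z, p i = c z) ∧ (Even n → Odd r → Even (y - x - (l : ℤ)))) ∨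
      (Even n ∧ Odd r ∧ ∀ x, P (c (x + 1)) ↔ ¬ P (c x)) := by
  by_contra hcon
  rw [not_or] at hcon
  obtain ⟨hno, hnb⟩ := hcon
  -- every path of length `l` on the cycle has ends of equal colour
  have eq_of_path : ∀ p : ℕ → V, ∀ x y : ℤ, IsP G p l → p 0 = c x → p l = c y →
      (∀ i, i ≤ l → ∃ z, p i = c z) → (Even n → Odd r → Even (y - x - (l : ℤ))) →
      (P (c x) ↔ P (c y)) := by
    intro p x y hp h0 h1 hm hev
    by_contra hne
    by_cases hx : P (c x)
    · exact hno ⟨p, x, y, hp, h0, h1, hx, fun hy => hne (by tauto), hm, hev⟩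
    · refine hno ⟨fun i => p (l - i), y, x, hp.rev, by simpa using h1, by simpa using h0,
        by tauto, hx, fun i hi => hm (l - i) (by omega), fun e o => ?_⟩
      have h := hev e o
      rw [Int.even_iff] at h ⊢
      omega
  let χ : ℤ → Prop := fun x => P (c x)
  have pl : ∀ x, χ (x + l) ↔ χ x := fun x =>
    (eq_of_path _ x (x + l) (hc.isP_up x hln) (by simp) rfl (fun i _ => ⟨_, rfl⟩)
      (fun _ _ => by simp)).symm
  have pn : ∀ x, χ (x + n) ↔ χ x := fun x => by
    show P (c (x + n)) ↔ P (c x)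
    rw [show (n : ℤ) = (n : ℤ) * 1 by ring, hc.periodic]
  -- the least period
  have hsp : ∃ d : ℕ, 0 < d ∧ ∀ x, χ (x + d) ↔ χ x := ⟨l, hl, pl⟩
  obtain ⟨hd, hper⟩ := Nat.find_spec hsp
  set d := Nat.find hsp
  have hmin : ∀ e : ℕ, (∀ x, χ (x + e) ↔ χ x) → d ∣ e := by
    intro e he
    have hrem : ∀ x, χ (x + (e % d : ℕ)) ↔ χ x := by
      intro x
      obtain ⟨y, q, -, -, -, hq⟩ := periodic_window hd hper 0 0
      have hmul : ∀ t : ℕ, ∀ z, χ (z + (d * t : ℕ)) ↔ χ z := by
        intro t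
        induction t with
        | zero => simp
        | succ t ih =>
          intro z
          rw [← ih z, ← hper (z + (d * t : ℕ))]
          push_cast
          ring_nf
      rw [← hmul (e / d) (x + (e % d : ℕ)), add_assoc, ← Nat.cast_add, Nat.mod_add_div, he]
    by_contra hnd
    have hpos : 0 < e % d := Nat.pos_of_ne_zero fun h => hnd (Nat.dvd_of_mod_eq_zero h)
    exact Nat.find_min hsp (Nat.mod_lt e hd) ⟨hpos, hrem⟩
  have hd2 : 2 ≤ d := by
    by_contra h
    have hd1 : d = 1 := by omega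
    obtain ⟨x, hx⟩ := hex
    obtain ⟨y, hy⟩ := hnex
    obtain ⟨z, q, h1, h2, e, hq⟩ := periodic_window hd hper x 0
    obtain ⟨z', q', h3, h4, e', hq'⟩ := periodic_window hd hper y 0
    have hz : z = z' := by omega
    apply hy
    show χ y
    rw [e', hq', ← hz, ← hq z, ← e]
    exact hx
  have hdl : d ∣ l := hmin l pl
  have hdn : d ∣ n := hmin n pn
  have hdl' : d ≤ l := Nat.le_of_dvd hl hdl
  have hdnl : d ≤ n - l := Nat.le_of_dvd (by omega) (Nat.dvd_sub hdn hdl)
  have hlq : ∀ x, χ (x - (l : ℤ)) ↔ χ x := fun x => by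
    simpa using (pl (x - l)).symm
  -- long chord: both reflections hold
  have refl1 : d ≤ r → d ≤ n - r → ∀ x, χ x ↔ χ ((r : ℤ) + 1 - x) := by
    intro h1 h2 x
    have hb : ∀ a : ℕ, a < l → l ≤ a + r → a + r < n → (χ (-(a : ℤ)) ↔ χ ((r : ℤ) + 1 + a)) := by
      intro a ha ha' ha''
      obtain ⟨b, hb⟩ : ∃ b, l = a + 1 + b := ⟨l - (a + 1), by omega⟩
      have hp : IsP G (cat (fun i : ℕ => c (-(a : ℤ) + i)) a (fun j : ℕ => c ((r : ℤ) - j))) l := by
        rw [hb]
        refine hc.isP_join (hc.isP_up _ (by omega)) (hc.isP_down _ (by omega)) ?_ ?_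
        · simpa using hch
        · intro i hi j hj
          exact ⟨_, _, rfl, rfl, by omega, by omega⟩
      have := eq_of_path _ (-(a : ℤ)) ((r : ℤ) - b) hp (by simp [cat_zero]) (by
        rw [hb, cat_last]) (fun i hi => by
        rcases cat_cases (f := fun i : ℕ => c (-(a : ℤ) + i))
          (g := fun j : ℕ => c ((r : ℤ) - j)) (hb ▸ hi) with ⟨u, -, e, -⟩ | ⟨u, -, e, -⟩ <;>
          exact ⟨_, e⟩) (fun _ ho => by
        obtain ⟨t, ht⟩ := ho
        exact ⟨(t : ℤ) - b, by push_cast [hb, ht]; ring⟩)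
      show χ (-(a : ℤ)) ↔ _
      rw [show χ (-(a : ℤ)) ↔ χ ((r : ℤ) - b) from this, ← pl]
      rw [show ((r : ℤ) - b + l) = (r : ℤ) + 1 + a by push_cast [hb]; ring]
    obtain ⟨y, q, hy1, hy2, e, hq⟩ := periodic_window hd hper x (-(max 0 ((l : ℤ) - r)) - d + 1)
    obtain ⟨a, ha⟩ : ∃ a : ℕ, (a : ℤ) = -y := ⟨(-y).toNat, by omega⟩
    have key := hb a (by omega) (by omega) (by omega)
    rw [ha, neg_neg, show (r : ℤ) + 1 + -y = (r : ℤ) + 1 - x + d * q by rw [e]; ring, hq] at key
    rw [show x = y + (d : ℤ) * q from e, hq] at *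
    exact key
  have refl2 : d ≤ r → d ≤ n - r → ∀ x, χ x ↔ χ ((r : ℤ) - 1 - x) := by
    intro h1 h2 x
    have hb : ∀ a : ℕ, a < l → a < r → r + l ≤ a + n → (χ (a : ℤ) ↔ χ ((r : ℤ) - 1 - a)) := by
      intro a ha ha' ha''
      obtain ⟨b, hb⟩ : ∃ b, l = a + 1 + b := ⟨l - (a + 1), by omega⟩
      have hp : IsP G (cat (fun i : ℕ => c ((a : ℤ) - i)) a (fun j : ℕ => c ((r : ℤ) + j))) l := by
        rw [hb]
        refine hc.isP_join (hc.isP_down _ (by omega)) (hc.isP_up _ (by omega)) ?_ ?_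
        · simpa using hch
        · intro i hi j hj
          exact ⟨_, _, rfl, rfl, by omega, by omega⟩
      have := eq_of_path _ (a : ℤ) ((r : ℤ) + b) hp (by simp [cat_zero]) (by
        rw [hb, cat_last]) (fun i hi => by
        rcases cat_cases (f := fun i : ℕ => c ((a : ℤ) - i))
          (g := fun j : ℕ => c ((r : ℤ) + j)) (hb ▸ hi) with ⟨u, -, e, -⟩ | ⟨u, -, e, -⟩ <;>
          exact ⟨_, e⟩) (fun _ ho => by
        obtain ⟨t, ht⟩ := ho
        exact ⟨(t : ℤ) - a, by push_cast [hb, ht]; ring⟩)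
      rw [show χ (a : ℤ) ↔ χ ((r : ℤ) + b) from this, ← hlq]
      rw [show ((r : ℤ) + b - l) = (r : ℤ) - 1 - a by push_cast [hb]; ring]
    obtain ⟨y, q, hy1, hy2, e, hq⟩ :=
      periodic_window hd hper x (max 0 ((r : ℤ) + l - n))
    obtain ⟨a, ha⟩ : ∃ a : ℕ, (a : ℤ) = y := ⟨y.toNat, by omega⟩
    have key := hb a (by omega) (by omega) (by omega)
    rw [ha, show (r : ℤ) - 1 - y = (r : ℤ) - 1 - x + d * q by rw [e]; ring, hq] at key
    rw [show x = y + (d : ℤ) * q from e, hq] at *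
    exact key
  rcases Nat.lt_or_ge r d with hrd | hrd
  · -- short chord: `r - 1` is a period
    have hsh : ∀ a : ℕ, a < l → (χ (-(a : ℤ)) ↔ χ (-(a : ℤ) + ((r - 1 : ℕ) : ℤ))) := by
      intro a ha
      obtain ⟨b, hb⟩ : ∃ b, l = a + 1 + b := ⟨l - (a + 1), by omega⟩
      have hp : IsP G (cat (fun i : ℕ => c (-(a : ℤ) + i)) a (fun j : ℕ => c ((r : ℤ) + j))) l := by
        rw [hb]
        refine hc.isP_join (hc.isP_up _ (by omega)) (hc.isP_up _ (by omega)) ?_ ?_
        · simpa using hch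
        · intro i hi j hj
          exact ⟨_, _, rfl, rfl, by omega, by omega⟩
      have := eq_of_path _ (-(a : ℤ)) ((r : ℤ) + b) hp (by simp [cat_zero]) (by
        rw [hb, cat_last]) (fun i hi => by
        rcases cat_cases (f := fun i : ℕ => c (-(a : ℤ) + i))
          (g := fun j : ℕ => c ((r : ℤ) + j)) (hb ▸ hi) with ⟨u, -, e, -⟩ | ⟨u, -, e, -⟩ <;>
          exact ⟨_, e⟩) (fun _ ho => by
        obtain ⟨t, ht⟩ := ho
        exact ⟨(t : ℤ), by push_cast [hb, ht]; ring⟩)
      rw [show χ (-(a : ℤ)) ↔ χ ((r : ℤ) + b) from this, ← hlq]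
      rw [show ((r : ℤ) + b - l) = -(a : ℤ) + ((r - 1 : ℕ) : ℤ) by
        rw [Nat.cast_sub (by omega)]; push_cast [hb]; ring]
    have hall : ∀ x, χ (x + ((r - 1 : ℕ) : ℤ)) ↔ χ x := by
      intro x
      obtain ⟨y, q, hy1, hy2, e, hq⟩ := periodic_window hd hper x (-(d : ℤ) + 1)
      obtain ⟨a, ha⟩ : ∃ a : ℕ, (a : ℤ) = -y := ⟨(-y).toNat, by omega⟩
      have key := hsh a (by omega)
      rw [ha, neg_neg] at key
      rw [e, hq, show y + (d : ℤ) * q + ((r - 1 : ℕ) : ℤ) = y + ((r - 1 : ℕ) : ℤ) + d * q by ring,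
        hq]
      exact key.symm
    have := Nat.le_of_dvd (by omega) (hmin _ hall)
    omega
  rcases Nat.lt_or_ge (n - r) d with hnr | hnr
  · -- short chord on the other side
    have hch' : G.Adj (c r) (c ((r : ℤ) + (n - r : ℕ))) := by
      rw [Nat.cast_sub (by omega), show (r : ℤ) + ((n : ℤ) - r) = 0 + (n : ℤ) * 1 by ring,
        hc.periodic]
      exact hch.symm
    have hsh : ∀ a : ℕ, a < l →
        (χ ((r : ℤ) - a) ↔ χ ((r : ℤ) - a + ((n - r - 1 : ℕ) : ℤ))) := by
      intro a ha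
      obtain ⟨b, hb⟩ : ∃ b, l = a + 1 + b := ⟨l - (a + 1), by omega⟩
      have hp : IsP G (cat (fun i : ℕ => c ((r : ℤ) - a + i)) a
          (fun j : ℕ => c ((r : ℤ) + (n - r : ℕ) + j))) l := by
        rw [hb]
        refine hc.isP_join (hc.isP_up _ (by omega)) (hc.isP_up _ (by omega)) ?_ ?_
        · simpa using hch'
        · intro i hi j hj
          exact ⟨_, _, rfl, rfl, by omega, by omega⟩
      have := eq_of_path _ ((r : ℤ) - a) ((r : ℤ) + (n - r : ℕ) + b) hp (by simp [cat_zero]) (by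
        rw [hb, cat_last]) (fun i hi => by
        rcases cat_cases (f := fun i : ℕ => c ((r : ℤ) - a + i))
          (g := fun j : ℕ => c ((r : ℤ) + (n - r : ℕ) + j)) (hb ▸ hi) with
            ⟨u, -, e, -⟩ | ⟨u, -, e, -⟩ <;>
          exact ⟨_, e⟩) (fun he ho => by
        rw [Nat.cast_sub (by omega)]
        obtain ⟨t, ht⟩ := ho
        obtain ⟨s, hs⟩ := he
        exact ⟨(s : ℤ) - t - 1, by push_cast [hb, ht, hs]; ring⟩)
      rw [show χ ((r : ℤ) - a) ↔ χ ((r : ℤ) + (n - r : ℕ) + b) from this, ← hlq]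
      rw [show ((r : ℤ) + (n - r : ℕ) + b - l) = (r : ℤ) - a + ((n - r - 1 : ℕ) : ℤ) by
        rw [Nat.cast_sub (show 1 ≤ n - r by omega)]; push_cast [hb]; ring]
    have hall : ∀ x, χ (x + ((n - r - 1 : ℕ) : ℤ)) ↔ χ x := by
      intro x
      obtain ⟨y, q, hy1, hy2, e, hq⟩ := periodic_window hd hper x ((r : ℤ) - d + 1)
      obtain ⟨a, ha⟩ : ∃ a : ℕ, (a : ℤ) = (r : ℤ) - y := ⟨((r : ℤ) - y).toNat, by omega⟩
      have key := hsh a (by omega)
      rw [ha, sub_sub_cancel] at key
      rw [e, hq, show y + (d : ℤ) * q + ((n - r - 1 : ℕ) : ℤ)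
        = y + ((n - r - 1 : ℕ) : ℤ) + d * q by ring, hq]
      exact key.symm
    have := Nat.le_of_dvd (by omega) (hmin _ hall)
    omega
  -- both reflections: period two
  have p2 : ∀ x, χ (x + (2 : ℕ)) ↔ χ x := by
    intro x
    rw [refl1 hrd hnr (x + (2 : ℕ)), refl2 hrd hnr x]
    push_cast
    ring_nf
  have hd' : d = 2 := le_antisymm (Nat.le_of_dvd (by omega) (hmin 2 p2)) hd2
  have alt : ∀ x, χ (x + 1) ↔ ¬ χ x := by
    intro x
    have hkey : ¬ (χ 0 ↔ χ 1) := by
      intro h01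
      have hall : ∀ z, χ z ↔ χ 0 := by
        intro z
        obtain ⟨y, q, hy1, hy2, e, hq⟩ := periodic_window hd hper z 0
        rw [e, hq]
        rcases (show y = 0 ∨ y = 1 by omega) with rfl | rfl
        · exact Iff.rfl
        · exact h01.symm
      obtain ⟨a, ha⟩ := hex
      obtain ⟨b, hb⟩ := hnex
      exact hb ((hall b).2 ((hall a).1 ha))
    obtain ⟨y, q, hy1, hy2, e, hq⟩ := periodic_window hd hper x 0
    rw [show x + 1 = y + 1 + (d : ℤ) * q by omega, hq, e, hq]
    rcases (show y = 0 ∨ y = 1 by omega) with rfl | rfl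
    · norm_num
      tauto
    · have := hper 0
      rw [hd'] at this
      norm_num at this ⊢
      tauto
  refine hnb ⟨?_, ?_, alt⟩
  · obtain ⟨t, ht⟩ := hd' ▸ hdn
    exact ⟨t, by omega⟩
  · rcases Nat.even_or_odd r with ⟨t, ht⟩ | ho
    · exfalso
      have h := refl1 hrd hnr (t : ℤ)
      rw [show (r : ℤ) + 1 - t = (t : ℤ) + 1 by omega, alt] at h
      exact (iff_not_self h)
    · exact ho

/-- Parity along the cycle gives colours when the colouring alternates. -/
lemma alt_even {χ : ℤ → Prop} (h : ∀ x, χ (x + 1) ↔ ¬ χ x) :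
    ∀ x k : ℤ, χ (x + 2 * k) ↔ χ x := by
  intro x k
  have h2 : ∀ z, χ (z + (2 : ℕ)) ↔ χ z := fun z => by
    rw [show z + ((2 : ℕ) : ℤ) = z + 1 + 1 by push_cast; ring, h, h, not_not]
  induction k using Int.induction_on with
  | zero => simp
  | succ q ih =>
    refine Iff.trans ?_ ((h2 (x + 2 * q)).trans ih)
    push_cast
    ring_nf
  | pred q ih =>
    refine Iff.trans (Iff.symm ?_) ih
    refine Iff.trans ?_ (h2 (x + 2 * (-q - 1)))
    push_cast
    ring_nf

/-- Parents in a search tree inside `X`, `d` the depth and `v` the root. -/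
def IsTree (G : SimpleGraph V) (X : Finset V) (v : V) (d : V → ℕ) (par : V → V) : Prop :=
  ∀ u ∈ X, (d u = 0 → u = v) ∧ (0 < d u → par u ∈ X ∧ G.Adj u (par u) ∧ d (par u) + 1 = d u)

lemma IsTree.iter {X : Finset V} {v : V} {d : V → ℕ} {par : V → V} (h : IsTree G X v d par)
    {u : V} (hu : u ∈ X) : ∀ j, j ≤ d u → par^[j] u ∈ X ∧ d (par^[j] u) + j = d u := by
  intro j
  induction j with
  | zero => simp [hu]
  | succ j ih =>
    intro hj
    obtain ⟨h1, h2⟩ := ih (by omega)
    obtain ⟨h3, -, h5⟩ := (h _ h1).2 (by omega)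
    rw [Function.iterate_succ_apply']
    exact ⟨h3, by omega⟩

/-- The way down and up through the deepest common ancestor. -/
lemma IsTree.detour {X : Finset V} {v : V} {d : V → ℕ} {par : V → V} (h : IsTree G X v d par)
    {z w : V} (hz : z ∈ X) (hw : w ∈ X) (hdw : d w = d z) {t : ℕ} (ht : 0 < t) (hti : t ≤ d z)
    (he : par^[t] z = par^[t] w) (hne : par^[t - 1] z ≠ par^[t - 1] w) :
    ∃ g, IsP G g (2 * t) ∧ g 0 = w ∧ g (2 * t) = z ∧
      ∀ j, 0 < j → j < 2 * t → d (g j) < d z := by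
  have hne' : ∀ j, j < t → par^[j] z ≠ par^[j] w := by
    intro j hj hjj
    apply hne
    rw [show t - 1 = (t - 1 - j) + j by omega, Function.iterate_add_apply,
      Function.iterate_add_apply, hjj]
  let g : ℕ → V := fun i => if i ≤ t then par^[i] w else par^[2 * t - i] z
  have hdep : ∀ i, i ≤ 2 * t → (i ≤ t → d (g i) + i = d z) ∧
      (t ≤ i → d (g i) + (2 * t - i) = d z) := by
    intro i hi
    refine ⟨fun h' => ?_, fun h' => ?_⟩
    · simp only [g, if_pos h', ← hdw]
      exact (h.iter hw i (by omega)).2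
    · rcases Nat.lt_or_eq_of_le h' with h'' | h''
      · simp only [g, if_neg (show ¬ i ≤ t by omega)]
        exact (h.iter hz _ (by omega)).2
      · subst h''
        simp only [g, le_refl, if_true, show 2 * t - t = t by omega, ← hdw]
        exact (h.iter hw t (by omega)).2
  refine ⟨g, ⟨fun i j hi hj hij => ?_, fun i hi => ?_⟩, by simp [g], ?_, ?_⟩
  · have a1 := hdep i hi
    have a2 := hdep j hj
    rw [hij] at a1
    by_contra hne2
    rcases Nat.lt_or_ge i (t + 1) with hit | hit <;> rcases Nat.lt_or_ge j (t + 1) with hjt | hjt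
    · have := a1.1 (by omega); have := a2.1 (by omega); omega
    · have := a1.1 (by omega); have := a2.2 (by omega)
      simp only [g, if_pos (show i ≤ t by omega), if_neg (show ¬ j ≤ t by omega)] at hij
      exact hne' i (by omega) (by rw [show 2 * t - j = i by omega] at hij; exact hij.symm)
    · have := a1.2 (by omega); have := a2.1 (by omega)
      simp only [g, if_pos (show j ≤ t by omega), if_neg (show ¬ i ≤ t by omega)] at hij
      exact hne' j (by omega) (by rw [show 2 * t - i = j by omega] at hij; exact hij)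
    · have := a1.2 (by omega); have := a2.2 (by omega); omega
  · rcases Nat.lt_or_ge i t with hit | hit
    · obtain ⟨h1, h2⟩ := h.iter hw i (by omega)
      simp only [g, if_pos (show i ≤ t by omega), if_pos (show i + 1 ≤ t by omega),
        Function.iterate_succ_apply']
      exact ((h _ h1).2 (by omega)).2.1
    · have e1 : g i = par^[2 * t - i] z := by
        rcases Nat.lt_or_eq_of_le hit with h' | h'
        · simp only [g, if_neg (show ¬ i ≤ t by omega)]
        · subst h'
          simp only [g, le_refl, if_true, show 2 * t - t = t by omega, he]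
      obtain ⟨h1, h2⟩ := h.iter hz (2 * t - (i + 1)) (by omega)
      rw [e1, show 2 * t - i = 2 * t - (i + 1) + 1 by omega, Function.iterate_succ_apply']
      simp only [g, if_neg (show ¬ i + 1 ≤ t by omega)]
      exact ((h _ h1).2 (by omega)).2.1.symm
  · simp only [g, if_neg (show ¬ 2 * t ≤ t by omega), Nat.sub_self]
    rfl
  · intro j hj0 hj
    have := hdep j (by omega)
    rcases Nat.le_total j t with h' | h'
    · have := this.1 h'; omega
    · have := this.2 h'; omega

/-- A long cycle with a chord inside one low layer of a search tree gives a cycle of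
length `m`. -/
theorem hasCyc_of_layer_theta {X : Finset V} {v : V} {d : V → ℕ} {par : V → V}
    (hT : IsTree G X v d par) {c : ℤ → V} {n r m i : ℕ} (hc : IsCyc G c n)
    (hr : 2 ≤ r) (hrn : r + 2 ≤ n) (hch : G.Adj (c 0) (c r))
    (hcX : ∀ x, c x ∈ X) (hlay : ∀ x, d (c x) = i) (hn : m ≤ n + 1) (him : 2 * i < m) :
    HasCyc G m := by
  -- closing an in-layer path through the tree
  have close : ∀ (p : ℕ → V) (z w : ℤ) (t : ℕ), IsP G p (m - 2 * t) → p 0 = c z →
      p (m - 2 * t) = c w → (∀ j, j ≤ m - 2 * t → ∃ u, p j = c u) → 0 < t → t ≤ i →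
      par^[t] (c z) = par^[t] (c w) → par^[t - 1] (c z) ≠ par^[t - 1] (c w) → HasCyc G m := by
    intro p z w t hp h0 h1 hm ht hti he hne
    obtain ⟨g, hg, g0, g1, hgd⟩ := hT.detour (hcX z) (hcX w) (by rw [hlay, hlay]) ht
      (by rw [hlay]; exact hti) he hne
    refine HasCyc.of_paths hp hg (by rw [h1, g0]) (by rw [g1, h0]) (by omega)
      (fun a ha b hb0 hb1 hab => ?_) (by omega)
    obtain ⟨u, hu⟩ := hm a ha
    have := hgd b hb0 hb1
    rw [← hab, hu, hlay, hlay] at this
    exact lt_irrefl _ this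
  have h10 : c 1 ≠ c 0 := hc.ne (by omega) (by omega)
  have htop : ∀ x y, par^[i] (c x) = par^[i] (c y) := by
    intro x y
    obtain ⟨a1, a2⟩ := hT.iter (hcX x) i (hlay x).ge
    obtain ⟨b1, b2⟩ := hT.iter (hcX y) i (hlay y).ge
    rw [hlay] at a2 b2
    rw [(hT _ a1).1 (by omega), (hT _ b1).1 (by omega)]
  have hsp : ∃ t, ∀ x y, par^[t] (c x) = par^[t] (c y) := ⟨i, htop⟩
  have hs := Nat.find_spec hsp
  set s := Nat.find hsp
  have hsi : s ≤ i := Nat.find_le htop
  have hs0 : 0 < s := by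
    by_contra h0
    have hz : s = 0 := by omega
    exact h10 (by simpa [hz] using hs 1 0)
  -- first split
  let z₀ : V := par^[s - 1] (c 0)
  obtain ⟨y, hy⟩ : ∃ y, ¬ par^[s - 1] (c y) = z₀ := by
    have := Nat.find_min hsp (show s - 1 < s by omega)
    push Not at this
    obtain ⟨a, b, hab⟩ := this
    by_cases ha : par^[s - 1] (c a) = z₀
    · exact ⟨b, fun hb => hab (ha.trans hb.symm)⟩
    · exact ⟨a, ha⟩
  rcases theta_ab hc hr hrn hch (fun u => par^[s - 1] u = z₀) ⟨0, rfl⟩ ⟨y, hy⟩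
      (show 0 < m - 2 * s by omega) (show m - 2 * s < n by omega) with
    ⟨p, x, w, hp, h0, h1, hx, hw, hm, -⟩ | ⟨hne, hro, halt⟩
  · exact close p x w s hp h0 h1 hm hs0 hsi (hs x w) (by rw [hx]; exact Ne.symm hw)
  -- bipartite case: split the even class once more
  have hclass : ∀ k : ℤ, par^[s - 1] (c (2 * k)) = z₀ := by
    intro k
    have := (alt_even (χ := fun z => par^[s - 1] (c z) = z₀) halt 0 k).2 rfl
    simpa using this
  have hodd : ∀ k : ℤ, ¬ par^[s - 1] (c (1 + 2 * k)) = z₀ := by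
    intro k hk
    have h1 := (alt_even (χ := fun z => par^[s - 1] (c z) = z₀) halt 1 k).1 hk
    have h2 := (halt 0)
    simp only [zero_add] at h2
    exact h2.1 h1 rfl
  have hsp2 : ∃ t, ∀ a b : ℤ, par^[t] (c (2 * a)) = par^[t] (c (2 * b)) :=
    ⟨s - 1, fun a b => by rw [hclass, hclass]⟩
  have hs2 := Nat.find_spec hsp2
  set s' := Nat.find hsp2
  have hs's : s' ≤ s - 1 := Nat.find_le fun a b => by rw [hclass, hclass]
  have hs'0 : 0 < s' := by
    by_contra h0
    have hz : s' = 0 := by omega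
    exact hc.ne (show (0 : ℤ) < 2 by omega) (by omega) (by simpa [hz] using hs2 1 0)
  obtain ⟨k₁, k₂, hk⟩ : ∃ a b : ℤ, ¬ par^[s' - 1] (c (2 * a)) = par^[s' - 1] (c (2 * b)) := by
    have := Nat.find_min hsp2 (show s' - 1 < s' by omega)
    push Not at this
    exact this
  let z₁ : V := par^[s' - 1] (c (2 * k₁))
  -- the new part lies inside the even class
  have hup : ∀ u : V, par^[s' - 1] u = z₁ → par^[s - 1] u = z₀ := by
    intro u hu
    rw [← hclass k₁, show s - 1 = (s - 1 - (s' - 1)) + (s' - 1) by omega,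
      Function.iterate_add_apply, Function.iterate_add_apply, hu]
  rcases theta_ab hc hr hrn hch (fun u => par^[s' - 1] u = z₁) ⟨2 * k₁, rfl⟩
      ⟨2 * k₂, Ne.symm hk⟩ (show 0 < m - 2 * s' by omega) (show m - 2 * s' < n by omega) with
    ⟨p, x, w, hp, h0, h1, hx, hw, hm, hev⟩ | ⟨-, -, halt'⟩
  · obtain ⟨a, ha⟩ := hev hne hro
    obtain ⟨kx, rfl⟩ : ∃ k, x = 2 * k := by
      rcases Int.even_or_odd x with ⟨k, hk'⟩ | ⟨k, hk'⟩
      · exact ⟨k, by omega⟩
      · exact absurd (hup _ hx) (by rw [hk', add_comm]; exact hodd k)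
    by_cases hml : Even m
    · obtain ⟨b, hb⟩ := hml
      obtain ⟨kw, rfl⟩ : ∃ k, w = 2 * k := ⟨a + kx + ((m - 2 * s' : ℕ) : ℤ) / 2, by omega⟩
      exact close p _ _ s' hp h0 h1 hm hs'0 (by omega) (hs2 kx kw)
        (by rw [hx]; exact Ne.symm hw)
    · -- odd `m`: an arc of the cycle already closes through the first ancestor
      have hmo : Odd m := Nat.not_even_iff_odd.1 hml
      obtain ⟨b, hb⟩ := hmo
      refine close (fun j : ℕ => c (0 + j)) 0 ((m - 2 * s : ℕ) : ℤ) s
        (hc.isP_up 0 (by omega)) (by simp) (by simp) (fun j _ => ⟨_, rfl⟩) hs0 hsi (hs _ _) ?_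
      rw [show ((m - 2 * s : ℕ) : ℤ) = 1 + 2 * ((b : ℤ) - s) by omega]
      exact fun h => hodd _ h.symm
  · have h := alt_even (χ := fun z => par^[s' - 1] (c z) = z₁) halt' (2 * k₁) (k₂ - k₁)
    rw [show 2 * k₁ + 2 * (k₂ - k₁) = 2 * k₂ by ring] at h
    exact absurd (h.2 rfl) (Ne.symm hk)

/-- Breadth-first search tree of a connected set: depth is the distance from the root. -/
theorem exists_tree {X : Finset V} {v : V} (h : ConnOn G X) (hv : v ∈ X) :
    ∃ par, IsTree G X v (fun u => (GS G X).dist v u) par := by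
  have key : ∀ u ∈ X, 0 < (GS G X).dist v u → ∃ w, w ∈ X ∧ G.Adj u w ∧
      (GS G X).dist v w + 1 = (GS G X).dist v u := by
    intro u hu hpos
    obtain ⟨p, hp⟩ := (h.reachable hv hu).exists_walk_length_eq_dist
    have hadj := p.adj_getVert_succ (show p.length - 1 < p.length by omega)
    rw [show p.length - 1 + 1 = p.length by omega, p.getVert_length] at hadj
    refine ⟨_, hadj.2.1, hadj.1.symm, ?_⟩
    have h1 : (GS G X).dist v (p.getVert (p.length - 1)) ≤ p.length - 1 := by
      refine le_trans (SimpleGraph.dist_le (p.take (p.length - 1))) ?_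
      simp
    obtain ⟨q, hq⟩ := (h.reachable hv hadj.2.1).exists_walk_length_eq_dist
    have h2 := SimpleGraph.dist_le (q.concat hadj)
    rw [SimpleGraph.Walk.length_concat] at h2
    omega
  choose! par hpar using key
  refine ⟨par, fun u hu => ⟨fun h0 => ?_, fun hpos => hpar u hu hpos⟩⟩
  exact ((SimpleGraph.Reachable.dist_eq_zero_iff (h.reachable hv hu)).1 h0).symm

end Vale.Agent.P048
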