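import Vale.Agent.P048.Main

/-!
P048: the induction on the independence number, the clique construction, and the conversion
between cycles given by functions and cycles given by walks.
-/

open scoped Classical

namespace Vale.Agent.P048

variable {V : Type*} {G : SimpleGraph V}

theorem card_le_mul (m : ℕ) (hno : ¬ HasCyc G m) : ∀ (k : ℕ) (X : Finset V),
    InRange m (max k 2) → alpha G X ≤ k → X.card ≤ (m - 1) * k := by
  intro k
  induction k using Nat.strong_induction_on with
  | _ k ih =>
  intro X hr hX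
  unfold InRange at hr
  have hm : 10 ≤ m := by omega
  by_contra hbig
  rcases Nat.eq_zero_or_pos k with hk0 | hk0
  · subst hk0
    rcases X.eq_empty_or_nonempty with h | h
    · simp [h] at hbig
    · have := one_le_alpha (G := G) h
      omega
  by_cases hk1 : k = 1
  · subst hk1
    obtain ⟨T, hT, hTc⟩ := Finset.exists_subset_card_eq (by omega : m ≤ X.card)
    have hTcl : G.IsClique (T : Set V) :=
      (clique_of_alpha_le_one hX).subset (Finset.coe_subset.2 hT)
    obtain ⟨v, hv, w, hw, hvw⟩ := Finset.one_lt_card.1 (by omega : 1 < T.card)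
    obtain ⟨g, hg, hg0, hgt, -⟩ :=
      clique_path hTcl hv hw hvw (t := m - 1) (by omega) (by omega)
    exact hno ⟨g, m - 1, by omega, hg, by rw [hg0, hgt]; exact (hTcl hv hw hvw).symm⟩
  have hC : Cx G m k X := ⟨hno, fun Y hY => ih _ hY Y
    (by unfold InRange; omega) le_rfl, hX, by omega⟩
  have hnoclq : ∀ K, K ⊆ X → K.card = m / 2 → ¬ G.IsClique (K : Set V) :=
    fun K hK hKc hcl => hC.no_clique hm (by omega) (by omega) hK hKc hcl
  have two : ∀ Y, Y ⊆ X → alpha G Y ≤ 2 → Y.card ≤ m - 1 := fun Y hY h =>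
    card_le_of_alpha_two hm hno (fun K hK => hnoclq K (hK.trans hY)) h
  by_cases hk2 : k = 2
  · subst hk2
    have := two X subset_rfl hX
    omega
  -- a smallest large subset
  have hXa : alpha G X = k := by
    by_contra hne
    have h := hC.ih X (by omega)
    have := Nat.mul_le_mul_left (m - 1) hX
    omega
  let S := X.powerset.filter fun Y => 3 ≤ alpha G Y ∧ (m - 1) * (alpha G Y - 1) < Y.card
  have hXS : X ∈ S := Finset.mem_filter.2 ⟨Finset.mem_powerset.2 subset_rfl, by omega, by
    rw [hXa]
    have := Nat.mul_le_mul_left (m - 1) (Nat.sub_le k 1)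
    omega⟩
  obtain ⟨H, hHS, hmin⟩ := Finset.exists_min_image S Finset.card ⟨X, hXS⟩
  obtain ⟨hHX, hH3, hHbig⟩ := Finset.mem_filter.1 hHS
  rw [Finset.mem_powerset] at hHX
  have hHk : alpha G H ≤ k := (alpha_mono hHX).trans hX
  have small : ∀ Y, Y ⊆ H → 2 ≤ alpha G Y → alpha G Y < alpha G H →
      Y.card ≤ (m - 1) * (alpha G Y - 1) := by
    intro Y hY h2 hlt
    by_cases h3 : 3 ≤ alpha G Y
    · by_contra hcon
      have hYS : Y ∈ S := Finset.mem_filter.2
        ⟨Finset.mem_powerset.2 (hY.trans hHX), h3, by omega⟩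
      have hc := hmin Y hYS
      have hne : Y ≠ H := fun e => by
        rw [e] at hlt
        omega
      have := Finset.card_lt_card (lt_of_le_of_ne hY hne)
      omega
    · rw [show alpha G Y - 1 = 1 by omega, Nat.mul_one]
      exact two Y (hY.trans hHX) (by omega)
  have hdeg : ∀ v ∈ H, m - 1 ≤ (nb G v H).card := by
    intro v hv
    have h1 := card_le_nb_add (G := G) (X := H) (v := v)
    have h2 := alpha_nonnb (G := G) le_rfl hv
    have h3 : (H.filter fun y => y ≠ v ∧ ¬ G.Adj v y).card ≤
        (m - 1) * (alpha G H - 2) := by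
      by_cases hc : 2 ≤ alpha G (H.filter fun y => y ≠ v ∧ ¬ G.Adj v y)
      · refine (small _ (Finset.filter_subset _ _) hc (by omega)).trans
          (Nat.mul_le_mul_left _ (by omega))
      · refine (two _ ((Finset.filter_subset _ _).trans hHX) (by omega)).trans ?_
        exact Nat.le_mul_of_pos_right _ (by omega)
    have h4 : alpha G H - 1 = alpha G H - 2 + 1 := by omega
    rw [h4, Nat.mul_add, Nat.mul_one] at hHbig
    omega
  have hgood : Good G m (alpha G H) H := ⟨hno, le_rfl, hHbig, small, hdeg, fun K hK hcl => by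
    by_contra hge
    obtain ⟨T, hT, hTc⟩ := Finset.exists_subset_card_eq (by omega : m / 2 ≤ K.card)
    exact hnoclq T (hT.trans (hK.trans hHX)) hTc (hcl.subset (Finset.coe_subset.2 hT))⟩
  exact hgood.false hH3 hHk (by unfold InRange; omega)

/-- A path given by a function gives a walk. -/
lemma exists_walk_of_isP {f : ℕ → V} : ∀ {r : ℕ}, IsP G f r →
    ∃ p : G.Walk (f 0) (f r), p.length = r ∧ p.support = (List.range (r + 1)).map f ∧
      p.edges = (List.range r).map fun i => s(f i, f (i + 1)) := by
  intro r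
  induction r with
  | zero => exact fun _ => ⟨SimpleGraph.Walk.nil, rfl, by simp, by simp⟩
  | succ r ih =>
    intro h
    obtain ⟨p, h1, h2, h3⟩ := ih (h.mono (Nat.le_succ r))
    refine ⟨p.concat (h.2 r (Nat.lt_succ_self r)), ?_, ?_, ?_⟩
    · rw [SimpleGraph.Walk.length_concat, h1]
    · rw [SimpleGraph.Walk.support_concat, h2, List.range_succ (n := r + 1), List.map_append]
      simp
    · rw [SimpleGraph.Walk.edges_concat, h3, List.range_succ (n := r), List.map_append]
      simp

/-- A cycle given by a function gives a cycle as a walk. -/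
lemma HasCyc.to_walk {m : ℕ} (hm : 3 ≤ m) (h : HasCyc G m) :
    ∃ v, ∃ p : G.Walk v v, p.IsCycle ∧ p.length = m := by
  obtain ⟨f, r, hr, hf, hcl⟩ := h
  obtain ⟨p, h1, h2, h3⟩ := exists_walk_of_isP hf
  refine ⟨f r, SimpleGraph.Walk.cons hcl p, ?_, by rw [SimpleGraph.Walk.length_cons, h1, hr]⟩
  rw [SimpleGraph.Walk.cons_isCycle_iff, SimpleGraph.Walk.isPath_def, h2, h3]
  refine ⟨List.Nodup.map_on (fun a ha b hb he => hf.1 a b ?_ ?_ he) List.nodup_range, ?_⟩
  · rw [List.mem_range] at ha
    omega
  · rw [List.mem_range] at hb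
    omega
  intro hmem
  obtain ⟨i, hi, he⟩ := List.mem_map.1 hmem
  rw [List.mem_range] at hi
  rcases Sym2.eq_iff.1 he with ⟨e1, -⟩ | ⟨e1, e2⟩
  · have := hf.1 i r hi.le le_rfl e1
    omega
  · have := hf.1 i 0 hi.le (Nat.zero_le _) e1
    have := hf.1 (i + 1) r hi le_rfl e2
    omega

/-- Upper bound. -/
theorem cycle_or_indep {m n : ℕ} (hn : 3 ≤ n) (hr : InRange m (n - 1))
    (G : SimpleGraph (Fin ((m - 1) * (n - 1) + 1))) :
    (∃ v, ∃ p : G.Walk v v, p.IsCycle ∧ p.length = m) ∨ ∃ s, G.IsNIndepSet n s := by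
  by_cases h : alpha G Finset.univ ≤ n - 1
  · left
    have hm : 3 ≤ m := by
      unfold InRange at hr
      omega
    refine HasCyc.to_walk hm ?_
    by_contra hno
    have := card_le_mul m hno (n - 1) Finset.univ
      (by rwa [show max (n - 1) 2 = n - 1 by omega]) h
    rw [Finset.card_univ, Fintype.card_fin] at this
    omega
  · right
    obtain ⟨s, -, hs, hc⟩ := exists_indep (by omega : n ≤ alpha G Finset.univ)
    exact ⟨s, fun x hx y hy _ => hs x hx y hy, hc⟩

/-- Disjoint cliques of order `m - 1` on at most `(m - 1) (n - 1)` vertices. -/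
theorem exists_free {m n N : ℕ} (hm : 2 ≤ m) (hN : N ≤ (m - 1) * (n - 1)) (hn : 1 ≤ n) :
    ∃ G : SimpleGraph (Fin N), (¬ ∃ v, ∃ p : G.Walk v v, p.IsCycle ∧ p.length = m) ∧
      ¬ ∃ s, G.IsNIndepSet n s := by
  let G : SimpleGraph (Fin N) :=
    SimpleGraph.fromRel fun i j => (i : ℕ) / (m - 1) = (j : ℕ) / (m - 1)
  have hadj : ∀ {i j}, G.Adj i j ↔ i ≠ j ∧ (i : ℕ) / (m - 1) = (j : ℕ) / (m - 1) := by
    intro i j
    simp only [G, SimpleGraph.fromRel_adj]
    tauto
  refine ⟨G, ?_, ?_⟩
  · rintro ⟨v, p, hp, hl⟩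
    have hclass : ∀ {x y : Fin N} (q : G.Walk x y), ∀ z ∈ q.support,
        (z : ℕ) / (m - 1) = (x : ℕ) / (m - 1) := by
      intro x y q
      induction q with
      | nil => simp
      | cons hxy q ih =>
        intro z hz
        rw [SimpleGraph.Walk.support_cons, List.mem_cons] at hz
        rcases hz with rfl | hz
        · rfl
        · exact (ih z hz).trans (hadj.1 hxy).2.symm
    have hnd := hp.support_nodup
    have hlen : p.support.tail.length = m := by
      rw [List.length_tail, SimpleGraph.Walk.length_support, hl]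
      omega
    let T := p.support.tail.toFinset.image fun z : Fin N => (z : ℕ)
    have hT : T.card = m := by
      rw [Finset.card_image_of_injective _ Fin.val_injective, List.toFinset_card_of_nodup hnd,
        hlen]
    have hsub : T ⊆ (Finset.range (m - 1)).image
        fun i => (m - 1) * ((v : ℕ) / (m - 1)) + i := by
      intro x hx
      obtain ⟨z, hz, rfl⟩ := Finset.mem_image.1 hx
      rw [List.mem_toFinset] at hz
      refine Finset.mem_image.2
        ⟨(z : ℕ) % (m - 1), Finset.mem_range.2 (Nat.mod_lt _ (by omega)), ?_⟩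
      rw [← hclass p z (List.mem_of_mem_tail hz)]
      exact Nat.div_add_mod _ _
    have := (Finset.card_le_card hsub).trans Finset.card_image_le
    rw [Finset.card_range, hT] at this
    omega
  · rintro ⟨s, hs, hc⟩
    have h1 := Finset.card_le_card_of_injOn (s := s) (t := Finset.range (n - 1))
      (fun i : Fin N => (i : ℕ) / (m - 1)) (fun i _ => by
        rw [Finset.coe_range, Set.mem_Iio, Nat.div_lt_iff_lt_mul (by omega)]
        rw [Nat.mul_comm] at hN
        exact lt_of_lt_of_le i.isLt hN)
      (fun i hi j hj he => by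
        by_contra hne
        exact hs hi hj hne (hadj.2 ⟨hne, he⟩))
    rw [Finset.card_range, hc] at h1
    omega

/-- The Ramsey number on the covered range. -/
theorem ramsey_eq {m n : ℕ} (hn : 3 ≤ n) (hr : InRange m (n - 1)) :
    IsLeast {N : ℕ | ∀ G : SimpleGraph (Fin N),
      (∃ v, ∃ p : G.Walk v v, p.IsCycle ∧ p.length = m) ∨ ∃ s, G.IsNIndepSet n s}
      ((m - 1) * (n - 1) + 1) := by
  refine ⟨cycle_or_indep hn hr, fun N hN => ?_⟩
  by_contra hlt
  obtain ⟨G, h1, h2⟩ := exists_free (m := m) (n := n) (N := N)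
    (by unfold InRange at hr; omega) (by omega) (by omega)
  exact (hN G).elim h1 h2

end Vale.Agent.P048
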