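import Vale.Agent.P048.Conn

/-!
P048: the main argument. A gadget of triangles gives a path with an interval of lengths; a
second path back to its start is lengthened by detours, and if no detour fits then three or
four pairwise distant vertices force too large an independent set.
-/

open scoped Classical

namespace Vale.Agent.P048

variable {V : Type*} {G : SimpleGraph V}

/-- The range of `(m, k)` covered, `k + 1` being the order of the complete graph. -/
def InRange (m k : ℕ) : Prop := 11 * k + 8 ≤ 3 * m ∨ (10 * k + 1 ≤ 3 * m ∧ 118 ≤ 3 * m)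

lemma dist_tri {D : Finset V} {x y z : V} (h1 : (GS G D).Reachable x y)
    (h2 : (GS G D).Reachable y z) :
    (GS G D).dist x z ≤ (GS G D).dist x y + (GS G D).dist y z := by
  obtain ⟨p, hp⟩ := h1.exists_walk_length_eq_dist
  obtain ⟨q, hq⟩ := h2.exists_walk_length_eq_dist
  refine (SimpleGraph.dist_le (p.append q)).trans ?_
  rw [SimpleGraph.Walk.length_append, hp, hq]

/-- Geodesics: paths inside `D` without short cuts. -/
lemma exists_geo {D : Finset V} (hD : ConnOn G D) {x y : V} (hx : x ∈ D) (hy : y ∈ D) :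
    ∃ g, IsP G g ((GS G D).dist x y) ∧ g 0 = x ∧ g ((GS G D).dist x y) = y ∧ (∀ i, g i ∈ D) ∧
      (∀ i j, i + 2 ≤ j → j ≤ (GS G D).dist x y → ¬ G.Adj (g i) (g j)) ∧
      (∀ i, (GS G D).dist x (g i) ≤ i) ∧
      ∀ i, (GS G D).dist (g i) y ≤ (GS G D).dist x y - i := by
  obtain ⟨p, hp, hl⟩ := (hD.reachable hx hy).exists_path_of_dist
  refine ⟨p.getVert, hl ▸ isP_walk p hp, p.getVert_zero, hl ▸ p.getVert_length,
    mem_of_walk p hx, ?_, ?_, ?_⟩
  · intro i j hij hj hadj
    have h := SimpleGraph.dist_le ((p.take i).append (SimpleGraph.Walk.cons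
      (show (GS G D).Adj (p.getVert i) (p.getVert j) from
        ⟨hadj, mem_of_walk p hx i, mem_of_walk p hx j⟩) (p.drop j)))
    rw [SimpleGraph.Walk.length_append, SimpleGraph.Walk.length_cons,
      SimpleGraph.Walk.take_length, SimpleGraph.Walk.drop_length] at h
    omega
  · intro i
    have h := SimpleGraph.dist_le (p.take i)
    rw [SimpleGraph.Walk.take_length] at h
    omega
  · intro i
    have h := SimpleGraph.dist_le (p.drop i)
    rw [SimpleGraph.Walk.drop_length] at h
    omega

/-- Connected sets have diameter at most `2 a - 1`. -/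
lemma dist_le_alpha {D X : Finset V} {a : ℕ} (hD : ConnOn G D) (hDX : D ⊆ X)
    (ha : alpha G X ≤ a) {x y : V} (hx : x ∈ D) (hy : y ∈ D) :
    (GS G D).dist x y < 2 * a := by
  by_contra hlt
  obtain ⟨g, hg, -, -, hgD, hgeo, -, -⟩ := exists_geo hD hx hy
  obtain ⟨i, j, -, hij, hj, hadj⟩ := chord hg (p := 0) (k := a) (X := X) (by omega)
    (fun i _ _ => hDX (hgD i)) ha
  exact hgeo i j hij (by omega) hadj

/-- Pairwise distant vertices give a large independent set. -/
lemma packing {D X : Finset V} {a B : ℕ} (hD : ConnOn G D) (hDX : D ⊆ X) (ha : alpha G X ≤ a)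
    {P : Finset V} (hP : P ⊆ D) (h2 : 2 ≤ P.card) (hB : 1 ≤ B)
    (hfar : ∀ x ∈ P, ∀ y ∈ P, x ≠ y → B < (GS G D).dist x y) :
    P.card * ((B - 1) / 4 + 1) ≤ a := by
  have hex : ∀ x ∈ P, ∃ g : ℕ → V, g 0 = x ∧ (∀ i, g i ∈ D) ∧
      (∀ i, (GS G D).dist x (g i) ≤ i) ∧
      (∀ i j, i + 2 ≤ j → j ≤ B → ¬ G.Adj (g i) (g j)) ∧
      ∀ i j, i ≤ B → j ≤ B → g i = g j → i = j := by
    intro x hx
    obtain ⟨y, hy, hyx⟩ := Finset.exists_mem_ne (by omega : 1 < P.card) x
    have hd := hfar x hx y hy hyx.symm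
    obtain ⟨g, hg, hg0, -, hgD, hgeo, hgd, -⟩ := exists_geo hD (hP hx) (hP hy)
    exact ⟨g, hg0, hgD, hgd, fun i j h h' => hgeo i j h (by omega),
      fun i j hi hj => hg.1 i j (by omega) (by omega)⟩
  choose! g hg0 hgD hgd hgeo hginj using hex
  let ev : V × ℕ → V := fun q => g q.1 (2 * q.2)
  let Q := P ×ˢ Finset.range ((B - 1) / 4 + 1)
  have hQ : ∀ q ∈ Q, q.1 ∈ P ∧ 2 * q.2 ≤ B ∧ 4 * q.2 + 1 ≤ B := by
    intro q hq
    rw [Finset.mem_product, Finset.mem_range] at hq
    exact ⟨hq.1, by omega, by omega⟩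
  have hclose : ∀ q ∈ Q, ∀ q' ∈ Q, q.1 ≠ q'.1 → ev q ≠ ev q' ∧ ¬ G.Adj (ev q) (ev q') := by
    intro q hq q' hq' hne
    obtain ⟨h1, -, h3⟩ := hQ q hq
    obtain ⟨h1', -, h3'⟩ := hQ q' hq'
    have hd := hfar _ h1 _ h1' hne
    have e1 := hgd q.1 h1 (2 * q.2)
    have e2 := hgd q'.1 h1' (2 * q'.2)
    have m1 : ev q ∈ D := hgD _ h1 _
    have m2 : ev q' ∈ D := hgD _ h1' _
    change (GS G D).dist q.1 (ev q) ≤ _ at e1
    change (GS G D).dist q'.1 (ev q') ≤ _ at e2
    rw [SimpleGraph.dist_comm] at e2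
    have t1 := dist_tri (hD.reachable (hP h1) m1) (hD.reachable m1 (hP h1'))
    have t2 := dist_tri (hD.reachable m1 m2) (hD.reachable m2 (hP h1'))
    refine ⟨fun he => ?_, fun hadj => ?_⟩
    · rw [he] at t1 e1
      omega
    · have t3 := SimpleGraph.dist_le
        (SimpleGraph.Walk.cons (show (GS G D).Adj (ev q) (ev q') from ⟨hadj, m1, m2⟩)
          SimpleGraph.Walk.nil)
      rw [SimpleGraph.Walk.length_cons, SimpleGraph.Walk.length_nil] at t3
      omega
  have hinj : Set.InjOn ev Q := by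
    intro q hq q' hq' he
    rw [Finset.mem_coe] at hq hq'
    by_cases hne : q.1 = q'.1
    · obtain ⟨h1, h2', -⟩ := hQ q hq
      obtain ⟨-, h2'', -⟩ := hQ q' hq'
      simp only [ev, ← hne] at he
      have := hginj q.1 h1 _ _ h2' h2'' he
      exact Prod.ext hne (by omega)
    · exact absurd he (hclose q hq q' hq' hne).1
  have hcard : (Q.image ev).card = P.card * ((B - 1) / 4 + 1) := by
    rw [Finset.card_image_of_injOn hinj, Finset.card_product, Finset.card_range]
  rw [← hcard]
  refine (le_alpha (Y := X) (fun x hx => ?_) ?_).trans ha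
  · obtain ⟨q, hq, rfl⟩ := Finset.mem_image.1 hx
    exact hDX (hgD _ (hQ q hq).1 _)
  · intro x hx y hy hxy
    obtain ⟨q, hq, rfl⟩ := Finset.mem_image.1 hx
    obtain ⟨q', hq', rfl⟩ := Finset.mem_image.1 hy
    by_cases hne : q.1 = q'.1
    · obtain ⟨h1, h2', -⟩ := hQ q hq
      obtain ⟨-, h2'', -⟩ := hQ q' hq'
      simp only [ev, ← hne] at hxy
      rcases lt_trichotomy q.2 q'.2 with h | h | h
      · exact hgeo q.1 h1 _ _ (by omega) h2'' hxy
      · exact G.irrefl (h ▸ hxy)
      · exact hgeo q.1 h1 _ _ (by omega) h2' hxy.symm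
    · exact (hclose q hq q' hq' hne).2 hxy

/-- A chain of `g` triangles. -/
lemma Good.exists_gadget {m a : ℕ} {H : Finset V} (hH : Good G m a H) {g : ℕ}
    (hg : 2 * g + a ≤ m) :
    ∀ i, i ≤ g → ∃ z : ℕ → V, IsP G z (2 * i) ∧ (∀ j, j ≤ 2 * i → z j ∈ H) ∧
      ∀ j, j < i → G.Adj (z (2 * j)) (z (2 * j + 2)) := by
  intro i
  induction i with
  | zero =>
    intro _
    obtain ⟨v, hv⟩ := Finset.card_pos.1 (lt_of_le_of_lt (Nat.zero_le _) hH.big)
    exact ⟨fun _ => v, isP_const v, fun _ _ => hv, fun j hj => absurd hj (Nat.not_lt_zero j)⟩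
  | succ i ih =>
    intro hi
    obtain ⟨z, hz, hzH, hzg⟩ := ih (by omega)
    have hv := hzH (2 * i) le_rfl
    have hsub : nb G (z (2 * i)) H ⊆
        (nb G (z (2 * i)) H \ img z (2 * i)) ∪ (img z (2 * i)).erase (z (2 * i)) := by
      intro y hy
      by_cases h : y ∈ img z (2 * i)
      · exact Finset.mem_union_right _ (Finset.mem_erase.2 ⟨(mem_nb.1 hy).2.ne.symm, h⟩)
      · exact Finset.mem_union_left _ (Finset.mem_sdiff.2 ⟨hy, h⟩)
    have h1 := (Finset.card_le_card hsub).trans (Finset.card_union_le _ _)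
    rw [Finset.card_erase_of_mem (mem_img.2 ⟨2 * i, le_rfl, rfl⟩), hz.card_img] at h1
    have h2 := hH.deg _ hv
    obtain ⟨u, hu, b, hb, hub⟩ := exists_adj hH.alp
      (s := nb G (z (2 * i)) H \ img z (2 * i))
      (Finset.sdiff_subset.trans (Finset.filter_subset _ _)) (by omega)
    rw [Finset.mem_sdiff, mem_nb] at hu hb
    have hP := hz.cat ((isP_const u).cat (isP_const b) hub (fun _ _ _ _ => hub.ne))
      (by rw [cat_zero]; exact hu.1.2) (fun j hj l hl he => by
      have hmem : z j ∈ img z (2 * i) := mem_img.2 ⟨j, hj, rfl⟩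
      rw [he] at hmem
      exact cat_mem (P := fun x => x ∉ img z (2 * i)) (fun _ _ => hu.2) (fun _ _ => hb.2) l hl
        hmem)
    rw [show 2 * i + 1 + (0 + 1 + 0) = 2 * (i + 1) by omega] at hP
    refine ⟨_, hP, fun j hj => cat_mem (P := fun x => x ∈ H) (s := 0 + 1 + 0) hzH
      (cat_mem (P := fun x => x ∈ H) (fun _ _ => hu.1.1) (fun _ _ => hb.1.1)) j (by omega), ?_⟩
    intro j hj
    rcases Nat.lt_or_eq_of_le (Nat.lt_succ_iff.1 hj) with h | h
    · rw [cat_le (by omega), cat_le (by omega)]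
      exact hzg j h
    · subst h
      rw [cat_le le_rfl, show 2 * j + 2 = 2 * j + 1 + (0 + 1 + 0) by omega, cat_last, cat_last]
      exact hb.1.2

/-- A return path for the gadget `z`. -/
def RP (G : SimpleGraph V) (H : Finset V) (z : ℕ → V) (g r : ℕ) : Prop :=
  0 < r ∧ ∃ f, IsP G f r ∧ f 0 = z (2 * g) ∧ f r = z 0 ∧
    ∀ i, 0 < i → i < r → f i ∈ H \ img z (2 * g)

/-- The main contradiction. -/
theorem Good.false {m a k : ℕ} {H : Finset V} (hH : Good G m a H) (ha : 3 ≤ a) (hak : a ≤ k)
    (hr : InRange m k) : False := by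
  unfold InRange at hr
  set g := (m - max k 4) / 2 with hgdef
  have hk1 : k ≤ max k 4 := le_max_left _ _
  have hk2 : 4 ≤ max k 4 := le_max_right _ _
  have hk3 : max k 4 = k ∨ max k 4 = 4 := max_choice _ _
  have hg1 : 2 * g + max k 4 ≤ m := by omega
  have hg2 : m ≤ 2 * g + max k 4 + 1 := by omega
  have hg3 : 3 ≤ g := by omega
  obtain ⟨z, hz, hzH, hzg⟩ := hH.exists_gadget (g := g) (by omega) g le_rfl
  have hS := hH.conn (z := z) (N := 2 * g + 1) (g := g) (by omega) ha (by simpa using hz)
    (fun i hi => hzH i (by omega)) (by omega) (by omega) (by omega) hzg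
  rw [show 2 * g + 1 - 1 = 2 * g by omega] at hS
  -- some return path
  obtain ⟨r0, hr0, hr0U⟩ : ∃ r0, RP G H z g r0 ∧ r0 ≤ m - g := by
    have hnb : ∀ i, i ≤ 2 * g → ∃ e ∈ H \ img z (2 * g), G.Adj (z i) e := by
      intro i hi
      by_contra hcon
      push Not at hcon
      have hsub : nb G (z i) H ⊆ (img z (2 * g)).erase (z i) := fun y hy => by
        rw [mem_nb] at hy
        refine Finset.mem_erase.2 ⟨hy.2.ne.symm, ?_⟩
        by_contra hyS
        exact hcon y (Finset.mem_sdiff.2 ⟨hy.1, hyS⟩) hy.2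
      have h1 := Finset.card_le_card hsub
      rw [Finset.card_erase_of_mem (mem_img.2 ⟨i, hi, rfl⟩), hz.card_img] at h1
      have := hH.deg _ (hzH i hi)
      omega
    obtain ⟨e0, he0, ha0⟩ := hnb (2 * g) le_rfl
    obtain ⟨e1, he1, ha1⟩ := hnb 0 (Nat.zero_le _)
    have hd := dist_le_alpha hS.1 Finset.sdiff_subset hH.alp he0 he1
    obtain ⟨w, hw, hw0, hwd, hwm, -, -, -⟩ := exists_geo hS.1 he0 he1
    set d := (GS G (H \ img z (2 * g))).dist e0 e1
    have hnot : ∀ i, i ≤ 2 * g → ∀ j, z i ≠ w j := fun i hi j he =>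
      (Finset.mem_sdiff.1 (hwm j)).2 (mem_img.2 ⟨i, hi, he⟩)
    have hne0 : z 0 ≠ z (2 * g) := fun h => by
      have := hz.1 0 (2 * g) (Nat.zero_le _) le_rfl h
      omega
    have h1 := hw.cat (isP_const (z 0)) (hwd ▸ ha1.symm)
      (fun i _ j _ he => hnot 0 (Nat.zero_le _) i he.symm)
    have h2 := (isP_const (z (2 * g))).cat h1 (by rw [cat_zero, hw0]; exact ha0)
      (fun _ _ j hj => cat_mem (P := fun x => z (2 * g) ≠ x) (fun i _ => hnot _ le_rfl i)
        (fun _ _ => hne0.symm) j hj)
    refine ⟨0 + 1 + (d + 1 + 0), ⟨by omega, _, h2, cat_zero, ?_, fun i hi0 hi => ?_⟩, by omega⟩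
    · rw [cat_last, cat_last]
    · rw [cat_gt hi0, cat_le (by omega)]
      exact hwm _
  -- a longest admissible one
  obtain ⟨r, hR, hrU, hrmax⟩ : ∃ r, RP G H z g r ∧ r ≤ m - g ∧
      ∀ r', RP G H z g r' → r' ≤ m - g → r' ≤ r :=
    ⟨Nat.findGreatest (RP G H z g) (m - g), Nat.findGreatest_spec hr0U hr0,
      Nat.findGreatest_le _, fun r' h h' => Nat.le_findGreatest h' h⟩
  obtain ⟨hrpos, f, hf, hf0, hfr, hfm⟩ := hR
  by_cases hlong : m ≤ 2 * g + r
  · -- the gadget closes the cycle
    obtain ⟨O, hO, hOc⟩ := Finset.exists_subset_card_eq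
      (s := (Finset.range g).image fun i => 2 * i + 1) (n := 2 * g + r - m) (by
        rw [Finset.card_image_of_injective _ (fun x y (h : 2 * x + 1 = 2 * y + 1) => by omega),
          Finset.card_range]
        omega)
    have hOm : ∀ o ∈ O, ∃ i, i < g ∧ o = 2 * i + 1 := fun o ho => by
      obtain ⟨i, hi, e⟩ := Finset.mem_image.1 (hO ho)
      exact ⟨i, Finset.mem_range.1 hi, e.symm⟩
    obtain ⟨c, hc, -, hc0, hcl, hcm⟩ := delete_many O z _ hz (fun o ho => by
      obtain ⟨i, hi, rfl⟩ := hOm o ho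
      exact ⟨by omega, by omega, hzg i hi⟩) (fun o ho h => by
      obtain ⟨i, -, rfl⟩ := hOm o ho
      obtain ⟨i', -, e⟩ := hOm _ h
      omega)
    refine hH.noc (HasCyc.of_paths hc hf (hcl.trans hf0.symm) (hfr.trans hc0.symm) hrpos ?_
      (by omega))
    intro i hi j hj0 hj he
    obtain ⟨b, hb, e⟩ := hcm i hi
    exact (Finset.mem_sdiff.1 (hfm j hj0 hj)).2 (mem_img.2 ⟨b, hb, e.symm.trans he⟩)
  -- the combined path
  set N := 2 * g + r with hNdef
  set zz := cat z (2 * g) (fun i => f (1 + i)) with hzzdef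
  have hzz : IsP G zz (N - 1) := by
    by_cases h1 : r = 1
    · rw [show N - 1 = 2 * g by omega]
      refine ⟨fun i j hi hj he => ?_, fun i hi => ?_⟩
      · rw [hzzdef, cat_le hi, cat_le hj] at he
        exact hz.1 i j hi hj he
      · rw [hzzdef, cat_le hi.le, cat_le hi]
        exact hz.2 i hi
    · have h := hz.cat (hf.shift (a := 1) (b := r - 2) (by omega))
        (by rw [← hf0]; exact hf.2 0 hrpos) (fun i hi j hj he =>
          (Finset.mem_sdiff.1 (hfm (1 + j) (by omega) (by omega))).2 (mem_img.2 ⟨i, hi, he⟩))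
      rwa [show 2 * g + 1 + (r - 2) = N - 1 by omega] at h
  have hzzH : ∀ i, i < N → zz i ∈ H := fun i hi => by
    by_cases h : i ≤ 2 * g
    · rw [hzzdef, cat_le h]
      exact hzH i h
    · rw [hzzdef, cat_gt (by omega)]
      exact (Finset.mem_sdiff.1 (hfm _ (by omega) (by omega))).1
  have hconn := hH.conn (z := zz) (N := N) (g := g) (by omega) ha hzz hzzH (by omega) (by omega)
    (by omega) (fun i hi => by
      rw [hzzdef, cat_le (by omega), cat_le (by omega)]
      exact hzg i hi)
  obtain ⟨hD, -⟩ := hconn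
  set D := H \ img zz (N - 1) with hDdef
  have hSD : ∀ x ∈ D, x ∈ H \ img z (2 * g) := fun x hx => by
    rw [hDdef, Finset.mem_sdiff] at hx
    refine Finset.mem_sdiff.2 ⟨hx.1, fun h => hx.2 ?_⟩
    obtain ⟨i, hi, rfl⟩ := mem_img.1 h
    exact mem_img.2 ⟨i, by omega, cat_le hi⟩
  have hfimg : ∀ i, i ≤ r → f i ∈ img zz (N - 1) := fun i hi => by
    rcases Nat.eq_zero_or_pos i with h | h
    · subst h
      exact mem_img.2 ⟨2 * g, by omega, (cat_le le_rfl).trans hf0.symm⟩
    rcases Nat.lt_or_eq_of_le hi with h' | h'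
    · refine mem_img.2 ⟨2 * g + i, by omega, ?_⟩
      rw [hzzdef, cat_gt (by omega), show 1 + (2 * g + i - (2 * g + 1)) = i by omega]
    · exact mem_img.2 ⟨0, Nat.zero_le _, by rw [hzzdef, cat_zero, h', hfr]⟩
  have hfD : ∀ i, i ≤ r → ∀ x ∈ D, f i ≠ x := fun i hi x hx he =>
    (Finset.mem_sdiff.1 hx).2 (he ▸ hfimg i hi)
  have hY : ∀ i, i ≤ r → m - N ≤ (nb G (f i) D).card := by
    intro i hi
    have hfiH : f i ∈ H := by
      obtain ⟨j, hj, e⟩ := mem_img.1 (hfimg i hi)
      exact e ▸ hzzH j (by omega)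
    have hsub : nb G (f i) H ⊆ nb G (f i) D ∪ (img zz (N - 1)).erase (f i) := by
      intro y hy
      rw [mem_nb] at hy
      by_cases h : y ∈ img zz (N - 1)
      · exact Finset.mem_union_right _ (Finset.mem_erase.2 ⟨hy.2.ne.symm, h⟩)
      · exact Finset.mem_union_left _ (mem_nb.2 ⟨Finset.mem_sdiff.2 ⟨hy.1, h⟩, hy.2⟩)
    have h1 := (Finset.card_le_card hsub).trans (Finset.card_union_le _ _)
    rw [Finset.card_erase_of_mem (hfimg i hi), hzz.card_img] at h1
    have := hH.deg _ hfiH
    omega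
  have hex : ∀ i, i ≤ r → ∃ y ∈ D, G.Adj (f i) y := fun i hi => by
    obtain ⟨y, hy⟩ := Finset.card_pos.1 (by have := hY i hi; omega : 0 < (nb G (f i) D).card)
    exact ⟨y, mem_nb.1 hy⟩
  have hne : ∃ y : V, True := ⟨z 0, trivial⟩
  have : Nonempty V := ⟨hne.choose⟩
  choose! y hyD hya using hex
  set dd := fun u v => (GS G D).dist u v with hdd
  set B := m - g - r - 1 with hBdef
  have hBg : g ≤ B := by omega
  -- detours
  have lift : ∀ i j u u', i < j → j ≤ r → u ∈ D → u' ∈ D → G.Adj (f i) u → G.Adj (f j) u' →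
      j - i ≤ dd u u' + 1 → B < dd u u' := by
    intro i j u u' hij hj hu hu' ha1 ha2 hlow
    by_contra hB
    obtain ⟨w, hw, hw0, hwd, hwm, -, -, -⟩ := exists_geo hD hu hu'
    change IsP G w (dd u u') at hw
    change w (dd u u') = u' at hwd
    have h1 := hw.cat (hf.shift (a := j) (b := r - j) (by omega))
      (by rw [hwd]; exact ha2.symm) (fun a _ b hb he => hfD (j + b) (by omega) _ (hwm a) he.symm)
    have h2 := (hf.mono (by omega : i ≤ r)).cat h1 (by rw [cat_zero, hw0]; exact ha1)
      (fun a hA b hb he => by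
        rcases cat_cases (f := w) (g := fun t => f (j + t)) hb with
          ⟨c, hc, e, -⟩ | ⟨c, hc, e, -⟩ <;> rw [e] at he
        · exact hfD a (by omega) _ (hwm c) he
        · have := hf.1 a (j + c) (by omega) (by omega) he
          omega)
    have := hrmax (i + 1 + (dd u u' + 1 + (r - j))) ⟨by omega, _, h2, ?_, ?_, ?_⟩ (by omega)
    · omega
    · rw [cat_zero, hf0]
    · rw [cat_last, cat_last, show j + (r - j) = r by omega, hfr]
    · intro s hs0 hs
      rcases cat_cases (f := f) (g := cat w (dd u u') (fun t => f (j + t))) hs.le with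
        ⟨c, hc, e, rfl⟩ | ⟨b, hb, e, rfl⟩ <;> rw [e]
      · exact hfm s hs0 (by omega)
      · rcases cat_cases (f := w) (g := fun t => f (j + t)) hb with
          ⟨c, hc, e', rfl⟩ | ⟨c, hc, e', rfl⟩ <;> rw [e']
        · exact hSD _ (hwm _)
        · exact hfm (j + c) (by omega) (by omega)
  -- consecutive representatives are far apart
  have cons : ∀ i, i < r → B < dd (y i) (y (i + 1)) := fun i hi =>
    lift i (i + 1) _ _ (by omega) (by omega) (hyD i (by omega)) (hyD _ (by omega))
      (hya i (by omega)) (hya _ (by omega)) (by omega)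
  have near : ∀ i j, i < j → j ≤ r → dd (y i) (y j) ≤ B → dd (y i) (y j) + 2 ≤ j - i := by
    intro i j hij hj hle
    by_contra hcon
    have := lift i j _ _ hij hj (hyD i (by omega)) (hyD j hj) (hya i (by omega)) (hya j hj)
      (by omega)
    omega
  -- crossing detours
  have cross : ∀ i j, i < j → j < r → dd (y i) (y j) + dd (y (i + 1)) (y (j + 1)) + 1 ≤ B →
      False := by
    intro i j hij hj hsum
    obtain ⟨w1, hw1, hw10, hw1d, hw1m, -, hw1a, -⟩ :=
      exists_geo hD (hyD i (by omega)) (hyD j (by omega))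
    obtain ⟨w2, hw2, hw20, hw2d, hw2m, -, hw2a, -⟩ :=
      exists_geo hD (hyD (i + 1) (by omega)) (hyD (j + 1) (by omega))
    change IsP G w1 (dd (y i) (y j)) at hw1
    change IsP G w2 (dd (y (i + 1)) (y (j + 1))) at hw2
    change w1 (dd (y i) (y j)) = _ at hw1d
    change w2 (dd (y (i + 1)) (y (j + 1))) = _ at hw2d
    set d1 := dd (y i) (y j)
    set d2 := dd (y (i + 1)) (y (j + 1))
    have hdis : ∀ a, a ≤ d1 → ∀ b, b ≤ d2 → w1 a ≠ w2 b := by
      intro a hA b hb he
      have t := dist_tri (hD.reachable (hyD i (by omega)) (hw1m a))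
        (hD.reachable (hw1m a) (hyD (i + 1) (by omega)))
      have t1 := hw1a a
      have t2 := hw2a b
      have hc := cons i (by omega)
      rw [SimpleGraph.dist_comm, ← he] at t2
      simp only [hdd] at hc
      omega
    have p4 := hw2.cat (hf.shift (a := j + 1) (b := r - (j + 1)) (by omega))
      (by rw [hw2d]; exact (hya (j + 1) (by omega)).symm)
      (fun a _ b _ he => hfD (j + 1 + b) (by omega) _ (hw2m a) he.symm)
    have p3 := ((hf.shift (a := i + 1) (b := j - i - 1) (by omega)).rev).cat p4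
      (by
        rw [cat_zero, hw20, Nat.sub_self, Nat.add_zero]
        exact hya (i + 1) (by omega))
      (fun a _ b hb he => by
        rcases cat_cases (f := w2) (g := fun t => f (j + 1 + t)) hb with
          ⟨c, hc, e, -⟩ | ⟨c, hc, e, -⟩ <;> rw [e] at he
        · exact hfD (i + 1 + (j - i - 1 - a)) (by omega) _ (hw2m c) he
        · have := hf.1 (i + 1 + (j - i - 1 - a)) (j + 1 + c) (by omega) (by omega) he
          omega)
    have p2 := hw1.cat p3 (by
        rw [cat_zero, hw1d, Nat.sub_zero, show i + 1 + (j - i - 1) = j by omega]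
        exact (hya j (by omega)).symm)
      (fun a hA b hb he => by
        rcases cat_cases (f := fun t => f (i + 1 + (j - i - 1 - t)))
          (g := cat w2 d2 (fun t => f (j + 1 + t))) hb with ⟨c, hc, e, -⟩ | ⟨c, hc, e, -⟩ <;>
          rw [e] at he
        · exact hfD (i + 1 + (j - i - 1 - c)) (by omega) _ (hw1m a) he.symm
        · rcases cat_cases (f := w2) (g := fun t => f (j + 1 + t)) hc with
            ⟨l, hl, e', -⟩ | ⟨l, hl, e', -⟩ <;> rw [e'] at he
          · exact hdis a hA l hl he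
          · exact hfD (j + 1 + l) (by omega) _ (hw1m a) he.symm)
    have p1 := (hf.mono (by omega : i ≤ r)).cat p2
      (by rw [cat_zero, hw10]; exact hya i (by omega))
      (fun a hA b hb he => by
        rcases cat_cases (f := w1) (g := cat (fun t => f (i + 1 + (j - i - 1 - t))) (j - i - 1)
          (cat w2 d2 (fun t => f (j + 1 + t)))) hb with ⟨c, hc, e, -⟩ | ⟨c, hc, e, -⟩ <;>
          rw [e] at he
        · exact hfD a (by omega) _ (hw1m c) he
        · rcases cat_cases (f := fun t => f (i + 1 + (j - i - 1 - t)))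
            (g := cat w2 d2 (fun t => f (j + 1 + t))) hc with ⟨l, hl, e', -⟩ | ⟨l, hl, e', -⟩ <;>
            rw [e'] at he
          · have := hf.1 a (i + 1 + (j - i - 1 - l)) (by omega) (by omega) he
            omega
          · rcases cat_cases (f := w2) (g := fun t => f (j + 1 + t)) hl with
              ⟨s, hs, e'', -⟩ | ⟨s, hs, e'', -⟩ <;> rw [e''] at he
            · exact hfD a (by omega) _ (hw2m s) he
            · have := hf.1 a (j + 1 + s) (by omega) (by omega) he
              omega)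
    have := hrmax (i + 1 + (d1 + 1 + (j - i - 1 + 1 + (d2 + 1 + (r - (j + 1))))))
      ⟨by omega, _, p1, ?_, ?_, ?_⟩ (by omega)
    · omega
    · rw [cat_zero, hf0]
    · rw [cat_last, cat_last, cat_last, cat_last, show j + 1 + (r - (j + 1)) = r by omega, hfr]
    · intro s hs0 hs
      rcases cat_cases (f := f) (g := cat w1 d1 (cat (fun t => f (i + 1 + (j - i - 1 - t)))
        (j - i - 1) (cat w2 d2 (fun t => f (j + 1 + t))))) hs.le with
        ⟨a, hA, e, rfl⟩ | ⟨b, hb, e, rfl⟩ <;> rw [e]
      · exact hfm s hs0 (by omega)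
      rcases cat_cases (f := w1) (g := cat (fun t => f (i + 1 + (j - i - 1 - t))) (j - i - 1)
        (cat w2 d2 (fun t => f (j + 1 + t)))) hb with ⟨c, hc, e', rfl⟩ | ⟨c, hc, e', rfl⟩ <;>
        rw [e']
      · exact hSD _ (hw1m _)
      rcases cat_cases (f := fun t => f (i + 1 + (j - i - 1 - t)))
        (g := cat w2 d2 (fun t => f (j + 1 + t))) hc with ⟨l, hl, e'', rfl⟩ | ⟨l, hl, e'', rfl⟩ <;>
        rw [e'']
      · exact hfm _ (by omega) (by omega)
      rcases cat_cases (f := w2) (g := fun t => f (j + 1 + t)) hl with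
        ⟨o, ho, e3, rfl⟩ | ⟨o, ho, e3, rfl⟩ <;> rw [e3]
      · exact hSD _ (hw2m _)
      · exact hfm _ (by omega) (by omega)
  have hfarne : ∀ u v, B < dd u v → u ≠ v := fun u v h e => by
    subst e
    simp [hdd] at h
  have hdia : ∀ u v, u ∈ D → v ∈ D → dd u v < 2 * a := fun u v hu hv =>
    dist_le_alpha hD Finset.sdiff_subset hH.alp hu hv
  -- at most two edges: a detour fits
  by_cases hr3 : r ≤ 2
  · by_cases hr1 : r = 1
    · have : B < dd (y 0) (y 1) := cons 0 (by omega)
      have := hdia (y 0) (y 1) (hyD 0 (by omega)) (hyD 1 (by omega))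
      simp only [hdd] at *
      omega
    · obtain ⟨u, hu, hune⟩ := Finset.exists_mem_ne
        (by have := hY 2 (by omega); omega : 1 < (nb G (f 2) D).card) (y 0)
      rw [mem_nb] at hu
      have hpos : 0 < dd (y 0) u :=
        (hD.reachable (hyD 0 (by omega)) hu.1).pos_dist_of_ne hune.symm
      have := lift 0 2 (y 0) u (by omega) (by omega) (hyD 0 (by omega)) hu.1
        (hya 0 (by omega)) hu.2 (by omega)
      have := hdia (y 0) u (hyD 0 (by omega)) hu.1
      omega
  have pack : ∀ P : Finset ℕ, 2 ≤ P.card → (∀ i ∈ P, i ≤ r) →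
      (∀ i ∈ P, ∀ j ∈ P, i ≠ j → B < dd (y i) (y j)) → P.card * ((B - 1) / 4 + 1) ≤ k := by
    intro P hP hle hfar
    have hinj : Set.InjOn y P := fun i hi j hj he => by
      by_contra hne'
      exact hfarne _ _ (hfar i hi j hj hne') he
    have h := packing hD Finset.sdiff_subset hH.alp (P := P.image y) (B := B) (fun x hx => by
      obtain ⟨i, hi, rfl⟩ := Finset.mem_image.1 hx
      exact hyD i (hle i hi)) (by rw [Finset.card_image_of_injOn hinj]; exact hP) (by omega)
      (fun u hu v hv huv => by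
        obtain ⟨i, hi, rfl⟩ := Finset.mem_image.1 hu
        obtain ⟨j, hj, rfl⟩ := Finset.mem_image.1 hv
        exact hfar i hi j hj fun e => huv (e ▸ rfl))
    rw [Finset.card_image_of_injOn hinj] at h
    omega
  have dcomm : ∀ u v, dd u v = dd v u := fun u v => SimpleGraph.dist_comm
  by_cases hthree : r ≤ 6 ∨ 11 * k + 8 ≤ 3 * m
  · -- three mutually distant vertices
    obtain ⟨i, hi, hfar⟩ : ∃ i, i + 2 ≤ r ∧ B < dd (y i) (y (i + 2)) := by
      by_contra hcon
      push Not at hcon
      have h0 : dd (y 0) (y 2) ≤ B := hcon 0 (by omega)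
      have h1 : dd (y 1) (y 3) ≤ B := hcon 1 (by omega)
      have n0 := near 0 2 (by omega) (by omega) h0
      have n1 := near 1 3 (by omega) (by omega) h1
      exact cross 0 2 (by omega) (by omega) (by
        change dd (y 0) (y 2) + dd (y 1) (y 3) + 1 ≤ B
        omega)
    have hall : ∀ u ∈ ({i, i + 1, i + 2} : Finset ℕ), ∀ v ∈ ({i, i + 1, i + 2} : Finset ℕ),
        u ≠ v → B < dd (y u) (y v) := by
      have c0 := cons i (by omega)
      have c1 := cons (i + 1) (by omega)
      rw [show i + 1 + 1 = i + 2 by omega] at c1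
      intro u hu v hv huv
      simp only [Finset.mem_insert, Finset.mem_singleton] at hu hv
      rcases hu with rfl | rfl | rfl <;> rcases hv with rfl | rfl | rfl <;>
        first
          | exact absurd rfl huv
          | exact c0
          | exact c1
          | exact hfar
          | (rw [dcomm]; first | exact c0 | exact c1 | exact hfar)
    have hc : ({i, i + 1, i + 2} : Finset ℕ).card = 3 :=
      Finset.card_eq_three.2 ⟨i, i + 1, i + 2, by omega, by omega, by omega, rfl⟩
    have h := pack {i, i + 1, i + 2} (by omega) (fun u hu => by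
      simp only [Finset.mem_insert, Finset.mem_singleton] at hu
      omega) hall
    rw [hc] at h
    omega
  -- four mutually distant vertices
  push Not at hthree
  have hB12 : 12 ≤ B := by omega
  let R : ℕ → ℕ → Prop := fun i j => dd (y i) (y j) ≤ B
  have five : ∀ i j, i ≤ 7 → j ≤ 7 → R i j → dd (y i) (y j) ≤ 5 := by
    intro i j hi hj h
    rcases lt_trichotomy i j with h' | h' | h'
    · have := near i j h' (by omega) h
      omega
    · subst h'
      simp [hdd]
    · have := near j i h' (by omega) (dcomm (y i) (y j) ▸ h)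
      rw [dcomm]
      omega
  have trans' : ∀ i j l, i ≤ 7 → j ≤ 7 → l ≤ 7 → R i j → R j l → R i l := by
    intro i j l hi hj hl h1 h2
    have a1 := five i j hi hj h1
    have a2 := five j l hj hl h2
    have t := dist_tri (hD.reachable (hyD i (by omega)) (hyD j (by omega)))
      (hD.reachable (hyD j (by omega)) (hyD l (by omega)))
    simp only [R, hdd] at *
    omega
  have symm' : ∀ i j, R i j → R j i := fun i j h => by
    simp only [R] at *
    rwa [dcomm]
  have hne8 : ∀ i, i ≤ 7 → ((Finset.range 8).filter (R i)).Nonempty := fun i hi =>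
    ⟨i, Finset.mem_filter.2 ⟨Finset.mem_range.2 (by omega), by simp [R, hdd]⟩⟩
  let cls : ℕ → ℕ := fun i => if h : ((Finset.range 8).filter (R i)).Nonempty then
    ((Finset.range 8).filter (R i)).min' h else 0
  have hcls : ∀ i, i ≤ 7 → cls i ≤ 7 ∧ R i (cls i) := by
    intro i hi
    simp only [cls, dif_pos (hne8 i hi)]
    obtain ⟨h1, h2⟩ := Finset.mem_filter.1 (Finset.min'_mem _ (hne8 i hi))
    exact ⟨by rw [Finset.mem_range] at h1; omega, h2⟩
  have hclsR : ∀ i j, i ≤ 7 → j ≤ 7 → R i j → cls i = cls j := by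
    intro i j hi hj h
    have e : (Finset.range 8).filter (R i) = (Finset.range 8).filter (R j) :=
      Finset.filter_congr fun l hl => by
        rw [Finset.mem_range] at hl
        exact ⟨fun h' => trans' j i l hj hi (by omega) (symm' i j h) h',
          fun h' => trans' i j l hi hj (by omega) h h'⟩
    simp only [cls, e]
  let P := (Finset.range 8).image cls
  by_cases hP : 4 ≤ P.card
  · have h := pack P (by omega) (fun i hi => by
      obtain ⟨j, hj, rfl⟩ := Finset.mem_image.1 hi
      rw [Finset.mem_range] at hj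
      have := (hcls j (by omega)).1
      omega) (fun u hu v hv huv => by
      obtain ⟨i, hi, rfl⟩ := Finset.mem_image.1 hu
      obtain ⟨j, hj, rfl⟩ := Finset.mem_image.1 hv
      rw [Finset.mem_range] at hi hj
      by_contra hcon
      obtain ⟨ci, hci⟩ := hcls i (by omega)
      obtain ⟨cj, hcj⟩ := hcls j (by omega)
      refine huv (hclsR i j (by omega) (by omega) ?_)
      exact trans' i (cls j) j (by omega) cj (by omega)
        (trans' i (cls i) (cls j) (by omega) ci cj hci (not_lt.1 hcon)) (symm' _ _ hcj))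
    have h4 : 4 * ((B - 1) / 4 + 1) ≤ k := (Nat.mul_le_mul_right _ hP).trans h
    omega
  -- at most three classes: a repeated ordered pair
  obtain ⟨i, hi, j, hj, hij, he⟩ := Finset.exists_ne_map_eq_of_card_lt_of_maps_to
    (s := Finset.range 7) (t := P.offDiag) (f := fun i => (cls i, cls (i + 1))) (by
      rw [Finset.offDiag_card, Finset.card_range]
      interval_cases P.card <;> omega) (fun i hi => by
      rw [Finset.mem_coe, Finset.mem_range] at hi
      rw [Finset.mem_coe, Finset.mem_offDiag]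
      refine ⟨Finset.mem_image.2 ⟨i, Finset.mem_range.2 (by omega), rfl⟩,
        Finset.mem_image.2 ⟨i + 1, Finset.mem_range.2 (by omega), rfl⟩, fun e => ?_⟩
      dsimp only at e
      obtain ⟨ci, hci⟩ := hcls i (by omega)
      obtain ⟨cj, hcj⟩ := hcls (i + 1) (by omega)
      rw [← e] at hcj
      have h1 : R i (i + 1) := trans' i (cls i) (i + 1) (by omega) ci (by omega) hci (symm' _ _ hcj)
      have h2 := cons i (by omega)
      simp only [R] at h1
      omega)
  rw [Finset.mem_range] at hi hj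
  simp only [Prod.mk.injEq] at he
  have back : ∀ u v, u ≤ 7 → v ≤ 7 → cls u = cls v → R u v := fun u v hu hv e =>
    trans' u (cls u) v hu (hcls u hu).1 hv (hcls u hu).2
      (symm' _ _ (e ▸ (hcls v hv).2))
  have five1 := five i j (by omega) (by omega) (back i j (by omega) (by omega) he.1)
  have five2 := five (i + 1) (j + 1) (by omega) (by omega)
    (back (i + 1) (j + 1) (by omega) (by omega) he.2)
  rcases lt_or_gt_of_ne hij with h | h
  · exact cross i j h (by omega) (by omega)
  · refine cross j i h (by omega) ?_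
    rw [dcomm (y j), dcomm (y (j + 1))]
    omega

end Vale.Agent.P048
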